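import Mathlib

/-!
# P262: the Euclidean Steinitz constant is `O(√d)`: shared definitions

Items are `v : Fin n → Fin d → ℝ` with squared norms at most one, written in the eigenbasis of the
Gram matrix of the whole family; `g i` are its diagonal entries. Levels halve the Gram matrix.
A coordinate is *balanced* (`Sched.Bal`) until it crosses a threshold, then it is *poor*.
-/

open scoped BigOperators

namespace Vale.Agent.P262

/-- Gram entry of a sub-family. -/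
def gram {n d : ℕ} (v : Fin n → Fin d → ℝ) (U : Finset (Fin n)) (i k : Fin d) : ℝ :=
  ∑ x ∈ U, v x i * v x k

/-- Sum of a sub-family. -/
def vsum {n d : ℕ} (v : Fin n → Fin d → ℝ) (U : Finset (Fin n)) : Fin d → ℝ :=
  fun i => ∑ x ∈ U, v x i

/-- First-order statistic of coefficients `c`. -/
def lin {n d : ℕ} (v : Fin n → Fin d → ℝ) (U : Finset (Fin n)) (c : Fin n → ℝ) (i : Fin d) : ℝ :=
  ∑ x ∈ U, c x * v x i

/-- Second-order statistic of coefficients `c`. -/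
def quad {n d : ℕ} (v : Fin n → Fin d → ℝ) (U : Finset (Fin n)) (c : Fin n → ℝ) (i k : Fin d) :
    ℝ :=
  ∑ x ∈ U, c x * (v x i * v x k)

/-- The predicted diagonal entry at level `l`. -/
noncomputable def lvlVal (g₀ : ℝ) (l : ℕ) : ℝ := g₀ / 2 ^ l

/-- Weight of an entry of the balance error; `D` is clipped at one. -/
noncomputable def zWeight (Di Dk : ℝ) : ℝ :=
  Real.sqrt (max (max Di 1) (max Dk 1)) / (max Di 1 * max Dk 1)

/-- The threshold for staying balanced after a step of width `w`. -/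
noncomputable def kappa (C0 : ℝ) (w : ℕ) : ℝ := C0 * (w : ℝ) ^ (7 / 8 : ℝ)

/-- All bounds on the error of one rounding, with coefficients `c` on the items `U`.
`B` and `N` are sets of coordinates, `Q` a set with weights `θ`, and `ω`, `ω'` are weights on
pairs of coordinates. -/
structure FreshBound {n d : ℕ} (K : ℝ) (w : ℕ) (v : Fin n → Fin d → ℝ) (U : Finset (Fin n))
    (g : Fin d → ℝ) (B N Q : Finset (Fin d)) (θ : Fin d → ℝ) (ω ω' : Fin d → Fin d → ℝ)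
    (Ω Ω' : ℝ) (c : Fin n → ℝ) : Prop where
  segment : ∀ τ : ℝ, ∀ S : Finset (Fin d), S = B.filter (fun i => g i ≤ τ) → S.Nonempty →
    ∑ i ∈ S, lin v U c i ^ 2 ≤ K * ((S.card : ℝ) + ((w : ℝ) - 1))
  cross : ∑ i ∈ N, lin v U c i ^ 2 ≤ K * ((N.card : ℝ) + w)
  poor : ∑ i ∈ Q, θ i * lin v U c i ^ 2 ≤ K * w * ∑ i ∈ Q, θ i * gram v U i i
  bal : ∑ i, ∑ k, ω i k * quad v U c i k ^ 2 ≤ K * ((∑ i, ∑ k, ω i k) + w * Ω)
  bal' : ∑ i, ∑ k, ω' i k * quad v U c i k ^ 2 ≤ K * ((∑ i, ∑ k, ω' i k) + w * Ω')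
  crossDiag : |∑ i ∈ N, quad v U c i i| ≤ K * ((N.card : ℝ) + w)
  poorDiag : |∑ i ∈ Q, θ i * quad v U c i i| ≤
    K * Real.sqrt (w * ∑ x ∈ U, (∑ i ∈ Q, θ i * v x i ^ 2) ^ 2)

/-- The constants of the scheme: `K` is the segment constant of the endpoints, `C0` the balance
threshold, `ε` the goodness parameter, `z0` the balance bound and `Cb` the price of a step. -/
structure Consts where
  K : ℝ
  C0 : ℝ
  ε : ℝ
  z0 : ℝ
  Cb : ℝ

/-- A schedule: step `j` goes from level `lev j` to level `lev (j+1)`. `W j` is the mass of a wide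
step, and is zero for a binary step. -/
structure Sched (P : Consts) {d : ℕ} (g : Fin d → ℝ) where
  lev : ℕ → ℕ
  lev_zero : lev 0 = 0
  lev_mono : StrictMono lev
  W : ℕ → ℝ
  wide : ℕ → Bool
  wide_iff : ∀ j, wide j = true ↔ 1 < lev (j + 1) - lev j

namespace Sched

variable {P : Consts} {d : ℕ} {g : Fin d → ℝ}

/-- The width of step `j`. -/
def wd (S : Sched P g) (j : ℕ) : ℕ := S.lev (j + 1) - S.lev j

/-- The predicted diagonal at the start of step `j`. -/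
noncomputable def D (S : Sched P g) (j : ℕ) (i : Fin d) : ℝ := lvlVal (g i) (S.lev j)

/-- The balanced coordinates at the start of step `j`. -/
noncomputable def Bal (S : Sched P g) : ℕ → Finset (Fin d)
  | 0 => Finset.univ
  | j + 1 => (S.Bal j).filter (fun i => kappa P.C0 (S.wd j) ≤ S.D (j + 1) i)

/-- The coordinates that become poor in step `j`. -/
noncomputable def New (S : Sched P g) (j : ℕ) : Finset (Fin d) := S.Bal j \ S.Bal (j + 1)

/-- The poor coordinates at the start of step `j`. -/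
noncomputable def Poor (S : Sched P g) (j : ℕ) : Finset (Fin d) := Finset.univ \ S.Bal j

/-- The number of binary steps a coordinate has spent poor. -/
noncomputable def age (S : Sched P g) : ℕ → Fin d → ℕ
  | 0, _ => 0
  | j + 1, i => if i ∈ S.Bal j ∨ S.wide j = true then S.age j i else S.age j i + 1

/-- The weight of a poor coordinate. -/
noncomputable def theta (S : Sched P g) (j : ℕ) (i : Fin d) : ℝ := Real.sqrt 2 ^ S.age j i

/-- The inverse weight of a poor coordinate in the endpoint potential. -/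
noncomputable def beta (S : Sched P g) (j : ℕ) (i : Fin d) : ℝ :=
  2 + 3 * (∑ a ∈ Finset.range (S.age j i), (Real.sqrt 2 ^ a)⁻¹) +
    if 0 < j ∧ S.wide (j - 1) = true then (S.theta j i)⁻¹ else 0

/-- The bound on the poor mass at the start of step `j`. -/
noncomputable def Tb (S : Sched P g) : ℕ → ℝ
  | 0 => 0
  | j + 1 => if S.wide j then S.Tb j + P.Cb * S.W j else 3 / 4 * S.Tb j

/-- The allowance of an endpoint at the start of step `j`. -/
noncomputable def Bud (S : Sched P g) : ℕ → ℝ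
  | 0 => 0
  | j + 1 => S.Bud j +
      P.Cb * (S.W j + (if S.wide j then (S.wd j : ℝ) + 1 else 1) * S.Tb j)

/-- What a schedule must satisfy. -/
structure Valid (S : Sched P g) : Prop where
  first : S.wide 0 = true
  wide_next : ∀ j, S.wide j = true → S.wide (j + 1) = false
  W_nonneg : ∀ j, 0 ≤ S.W j
  W_binary : ∀ j, S.wide j = false → S.W j = 0
  width_le : ∀ j, S.wide j = true → (S.wd j : ℝ) ≤ S.W j
  new_binary : ∀ j, S.wide j = false → S.New j = ∅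
  new_card : ∀ j, ((S.New j).card : ℝ) ≤ S.W j
  new_mass : ∀ j, ∑ i ∈ S.New j, max (S.D (j + 1) i) 1 ≤ S.W j
  bal_large : ∀ j, ∀ i ∈ S.Bal (j + 1), P.C0 ≤ S.D (j + 1) i
  good : ∀ j, 0 < j → ∀ x : ℝ, 1 ≤ x →
    (((S.Bal j).filter (fun i => S.D j i ≤ x)).card : ℝ) ≤ P.ε * x ^ (1 / 16 : ℝ)

end Sched

/-- What holds for a node (items `U` between the prefix sums `a` and `b`) at the start of step
`j`. -/
structure NodeInv {n d : ℕ} {P : Consts} {g : Fin d → ℝ} (S : Sched P g)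
    (v : Fin n → Fin d → ℝ) (j : ℕ) (U : Finset (Fin n)) (a b : Fin d → ℝ) : Prop where
  sum_eq : ∀ i, b i = a i + vsum v U i
  balance : ∑ i ∈ S.Bal j, ∑ k ∈ S.Bal j, zWeight (S.D j i) (S.D j k) *
    (gram v U i k - if i = k then S.D j i else 0) ^ 2 ≤ P.z0
  diag_le : ∀ i ∈ S.Bal j, gram v U i i ≤ 2 * S.D j i
  poor_le : ∑ i ∈ S.Poor j, S.theta j i * gram v U i i ≤ S.Tb j
  pot_fst : ∀ τ : ℝ, (∑ i ∈ S.Poor j, a i ^ 2 / S.beta j i) +
    (∑ i ∈ (S.Bal j).filter (fun i => g i ≤ τ), a i ^ 2) ≤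
    S.Bud j + P.K * ((S.Bal j).filter (fun i => g i ≤ τ)).card
  pot_snd : ∀ τ : ℝ, (∑ i ∈ S.Poor j, b i ^ 2 / S.beta j i) +
    (∑ i ∈ (S.Bal j).filter (fun i => g i ≤ τ), b i ^ 2) ≤
    S.Bud j + P.K * ((S.Bal j).filter (fun i => g i ≤ τ)).card

/-- A part produced by a step: a node of the next step, or a few single items. -/
def StepPart {n d : ℕ} {P : Consts} {g : Fin d → ℝ} (S : Sched P g)
    (v : Fin n → Fin d → ℝ) (j : ℕ) (U : Finset (Fin n)) (a b : Fin d → ℝ) : Prop :=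
  NodeInv S v j U a b ∨ ((U.card : ℝ) ≤ P.Cb ∧ (∀ i, b i = a i + vsum v U i) ∧
    ∑ i, a i ^ 2 ≤ P.Cb * (S.Bud j + d))

/-- A step: the items split into consecutive parts. -/
def StepConclusion {n d : ℕ} {P : Consts} {g : Fin d → ℝ} (S : Sched P g)
    (v : Fin n → Fin d → ℝ) (j : ℕ) (U : Finset (Fin n)) (a b : Fin d → ℝ) : Prop :=
  ∃ (m : ℕ) (part : Fin m → Finset (Fin n)) (p : Fin (m + 1) → Fin d → ℝ),
    (∀ x, x ∈ U ↔ ∃ k, x ∈ part k) ∧ (∀ k k', k ≠ k' → Disjoint (part k) (part k')) ∧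
    p 0 = a ∧ p (Fin.last m) = b ∧
    ∀ k : Fin m, StepPart S v (j + 1) (part k) (p k.castSucc) (p k.succ)

/-! ## Interfaces between the modules -/

/-- Rounding into `2 ^ (w + 1)` windows of equal mass, all prefixes at once. -/
def WindowsProp : Prop := ∃ K : ℝ, 1 ≤ K ∧
  ∀ (n d : ℕ) (v : Fin n → Fin d → ℝ), (∀ x, ∑ i, v x i ^ 2 ≤ 1) →
  ∀ (U : Finset (Fin n)) (g : Fin d → ℝ) (B N Q : Finset (Fin d)) (θ : Fin d → ℝ)
    (ω ω' : Fin d → Fin d → ℝ) (Ω Ω' : ℝ),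
    (∀ i, 0 ≤ θ i) → (∀ i k, 0 ≤ ω i k ∧ ω i k ≤ Ω) → (∀ i k, 0 ≤ ω' i k ∧ ω' i k ≤ Ω') →
    0 ≤ Ω → 0 ≤ Ω' →
  ∀ (w m : ℕ), 1 ≤ w → m = 2 ^ (w + 1) →
  ∃ f : Fin n → ℕ, (∀ x, f x < m) ∧ ∀ k ≤ m, FreshBound K w v U g B N Q θ ω ω' Ω Ω'
    (fun x => (if f x < k then 1 else 0) - (k : ℝ) / m)

/-- Rounding of signed fractional choices. -/
def TransferProp : Prop := ∃ K : ℝ, 1 ≤ K ∧
  ∀ (n d : ℕ) (v : Fin n → Fin d → ℝ), (∀ x, ∑ i, v x i ^ 2 ≤ 1) →
  ∀ (U : Finset (Fin n)) (g : Fin d → ℝ) (B N Q : Finset (Fin d)) (θ : Fin d → ℝ)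
    (ω ω' : Fin d → Fin d → ℝ) (Ω Ω' : ℝ),
    (∀ i, 0 ≤ θ i) → (∀ i k, 0 ≤ ω i k ∧ ω i k ≤ Ω) → (∀ i k, 0 ≤ ω' i k ∧ ω' i k ≤ Ω') →
    0 ≤ Ω → 0 ≤ Ω' →
  ∀ (y σ : Fin n → ℝ), (∀ x, 0 ≤ y x ∧ y x ≤ 1) → (∀ x, σ x = 1 ∨ σ x = -1) →
  ∃ M : Finset (Fin n), M ⊆ U ∧ FreshBound K 1 v U g B N Q θ ω ω' Ω Ω'
    (fun x => σ x * ((if x ∈ M then 1 else 0) - y x))

/-- A schedule exists and its total budget is linear in `d`. -/
def ScheduleProp : Prop := ∀ C0 ε : ℝ, 1 ≤ C0 → 0 < ε → ε ≤ 1 → ∃ C : ℝ, 0 < C ∧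
  ∀ P : Consts, P.C0 = C0 → P.ε = ε → 1 ≤ P.Cb →
  ∀ (d : ℕ) (g : Fin d → ℝ), 0 < d → (∀ i, 0 ≤ g i) →
  ∃ S : Sched P g, S.Valid ∧ (∀ j, S.Bud j ≤ C * P.Cb ^ 2 * d) ∧
    ∀ᶠ j in Filter.atTop, S.Bal j = ∅ ∧ S.Tb j < 1 / 4

/-- The one-step theorem. -/
def StepProp : Prop := ∃ P : Consts, 0 < P.K ∧ 1 ≤ P.C0 ∧ 0 < P.ε ∧ P.ε ≤ 1 ∧ 0 ≤ P.z0 ∧
  1 ≤ P.Cb ∧
  ∀ (n d : ℕ) (g : Fin d → ℝ) (S : Sched P g), S.Valid → (∀ i, 0 ≤ g i) →
  ∀ (v : Fin n → Fin d → ℝ), (∀ x, ∑ i, v x i ^ 2 ≤ 1) →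
  ∀ (j : ℕ) (U : Finset (Fin n)) (a b : Fin d → ℝ),
    NodeInv S v j U a b → StepConclusion S v j U a b

end Vale.Agent.P262
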