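import Vale.Agent.P262.Defs

/-!
# P262: linear tools for one step (M3)

Counting sums over coordinates at a good level, the layer-cake inequality for allowances, the
balance weights, the shift equation and second-moment bounds.
-/

open Finset

namespace Vale.Agent.P262

variable {ι : Type*}

/-! ## Counting -/

/-- If at most `ε x ^ (1/16)` values lie below `x`, negative powers sum to `O(ε κ ^ (1/16 - p))`. -/
theorem count_rpow {p : ℝ} (hp : 1 / 16 < p) : ∃ C : ℝ, 0 < C ∧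
    ∀ (B : Finset ι) (D : ι → ℝ) (ε κ : ℝ), 1 ≤ κ → (∀ i ∈ B, κ ≤ D i) →
      (∀ x : ℝ, 1 ≤ x → ((B.filter fun i => D i ≤ x).card : ℝ) ≤ ε * x ^ (1 / 16 : ℝ)) →
      ∑ i ∈ B, D i ^ (-p) ≤ C * ε * κ ^ (1 / 16 - p) := by
  set q : ℝ := (2 : ℝ) ^ (1 / 16 - p)
  have hq0 : 0 < q := Real.rpow_pos_of_pos two_pos _
  have hq1 : q < 1 := Real.rpow_lt_one_of_one_lt_of_neg one_lt_two (by linarith)
  set c : ℝ := (2 : ℝ) ^ (1 / 16 : ℝ)
  have hc : 0 < c := Real.rpow_pos_of_pos two_pos _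
  refine ⟨c * (1 - q)⁻¹, mul_pos hc (inv_pos.2 (by linarith)), fun B D ε κ hκ hD hB => ?_⟩
  have hκ0 : 0 < κ := by linarith
  have hε : 0 ≤ ε := by simpa using (Nat.cast_nonneg _).trans (hB 1 le_rfl)
  have hex : ∀ i, ∃ n : ℕ, i ∈ B → 2 ^ n * κ ≤ D i ∧ D i < 2 ^ (n + 1) * κ := by
    intro i
    by_cases hi : i ∈ B
    · obtain ⟨n, h1, h2⟩ := exists_nat_pow_near ((one_le_div hκ0).2 (hD i hi)) one_lt_two
      exact ⟨n, fun _ => ⟨(le_div_iff₀ hκ0).1 h1, (div_lt_iff₀ hκ0).1 h2⟩⟩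
    · exact ⟨0, fun h => absurd h hi⟩
  choose lv hlv using hex
  obtain ⟨J, hJ⟩ : ∃ J, ∀ i ∈ B, lv i < J := ⟨B.sup lv + 1, fun i hi =>
    Nat.lt_succ_of_le (Finset.le_sup hi)⟩
  rw [← Finset.sum_fiberwise_of_maps_to (g := lv) (t := range J) fun i hi => mem_range.2 (hJ i hi)]
  calc ∑ n ∈ range J, ∑ i ∈ B with lv i = n, D i ^ (-p)
      ≤ ∑ n ∈ range J, ε * c * κ ^ (1 / 16 - p) * q ^ n := by
        refine sum_le_sum fun n _ => ?_
        have hpow : (0 : ℝ) < 2 ^ n * κ := by positivity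
        calc ∑ i ∈ B with lv i = n, D i ^ (-p)
            ≤ ∑ _i ∈ B with lv _i = n, (2 ^ n * κ) ^ (-p) := by
              refine sum_le_sum fun i hi => ?_
              obtain ⟨hiB, rfl⟩ := mem_filter.1 hi
              exact Real.rpow_le_rpow_of_nonpos hpow (hlv i hiB).1 (by linarith)
          _ ≤ (ε * (2 ^ (n + 1) * κ) ^ (1 / 16 : ℝ)) * (2 ^ n * κ) ^ (-p) := by
              rw [sum_const, nsmul_eq_mul]
              refine mul_le_mul_of_nonneg_right (le_trans ?_ (hB _ ?_))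
                (Real.rpow_nonneg hpow.le _)
              · refine Nat.cast_le.2 (card_le_card fun i hi => ?_)
                obtain ⟨hiB, rfl⟩ := mem_filter.1 hi
                exact mem_filter.2 ⟨hiB, (hlv i hiB).2.le⟩
              · exact one_le_mul_of_one_le_of_one_le (one_le_pow₀ one_le_two) hκ
          _ = ε * c * κ ^ (1 / 16 - p) * q ^ n := by
              rw [pow_succ, show (2 : ℝ) ^ n * 2 * κ = 2 * (2 ^ n * κ) by ring,
                Real.mul_rpow two_pos.le hpow.le, mul_assoc, mul_assoc (2 ^ (1 / 16 : ℝ) : ℝ),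
                ← Real.rpow_add hpow, ← sub_eq_add_neg, Real.mul_rpow (by positivity) hκ0.le,
                show ((2 : ℝ) ^ n) ^ (1 / 16 - p) = q ^ n by
                  rw [← Real.rpow_natCast, ← Real.rpow_natCast q, ← Real.rpow_mul two_pos.le,
                    ← Real.rpow_mul two_pos.le, mul_comm]]
              ring
    _ = ε * c * κ ^ (1 / 16 - p) * ∑ n ∈ range J, q ^ n := by rw [mul_sum]
    _ ≤ ε * c * κ ^ (1 / 16 - p) * (1 - q)⁻¹ := by
        refine mul_le_mul_of_nonneg_left ?_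
          (mul_nonneg (mul_nonneg hε hc.le) (Real.rpow_nonneg hκ0.le _))
        calc ∑ n ∈ range J, q ^ n ≤ ∑' n, q ^ n :=
              (summable_geometric_of_lt_one hq0.le hq1).sum_le_tsum _ fun n _ => by positivity
          _ = (1 - q)⁻¹ := tsum_geometric_of_lt_one hq0.le hq1
    _ = _ := by ring

/-! ## Layer cake for allowances -/

/-- An allowance on initial segments pairs with antitone weights. -/
theorem layer {B : Finset ι} {g a φ : ι → ℝ} {c e M : ℝ}
    (hφ : ∀ i ∈ B, 0 ≤ φ i) (hanti : ∀ i ∈ B, ∀ k ∈ B, g i ≤ g k → φ k ≤ φ i)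
    (hM : ∀ i ∈ B, φ i ≤ M)
    (hB : ∀ τ : ℝ, (B.filter fun i => g i ≤ τ).Nonempty →
      ∑ i ∈ B.filter (fun i => g i ≤ τ), a i ≤ c * (B.filter fun i => g i ≤ τ).card + e)
    (he : 0 ≤ e) (hM0 : 0 ≤ M) :
    ∑ i ∈ B, φ i * a i ≤ c * ∑ i ∈ B, φ i + e * M := by
  classical
  induction hn : B.card using Nat.strong_induction_on generalizing B φ M with
  | _ N ih =>
    subst hn
    rcases B.eq_empty_or_nonempty with rfl | hne
    · simpa using mul_nonneg he hM0
    obtain ⟨i0, hi0, hmin⟩ := B.exists_min_image φ hne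
    set m := φ i0
    set B' := B.filter fun i => m < φ i
    have hsub : B' ⊆ B := filter_subset _ _
    have hlt : B'.card < B.card :=
      card_lt_card (filter_ssubset.2 ⟨i0, hi0, lt_irrefl m⟩)
    have hlower : ∀ i ∈ B, ∀ k ∈ B', g i ≤ g k → i ∈ B' := fun i hi k hk hik =>
      mem_filter.2 ⟨hi, (mem_filter.1 hk).2.trans_le (hanti i hi k (hsub hk) hik)⟩
    have hB' : ∀ τ : ℝ, (B'.filter fun i => g i ≤ τ).Nonempty →
        ∑ i ∈ B'.filter (fun i => g i ≤ τ), a i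
          ≤ c * (B'.filter fun i => g i ≤ τ).card + e := by
      intro τ hτ
      obtain ⟨k, hk, hkmax⟩ := (B'.filter fun i => g i ≤ τ).exists_max_image g hτ
      have heq : B'.filter (fun i => g i ≤ τ) = B.filter fun i => g i ≤ g k := by
        ext i
        constructor
        · intro hi
          exact mem_filter.2 ⟨hsub (mem_filter.1 hi).1, hkmax i hi⟩
        · intro hi
          obtain ⟨hiB, hik⟩ := mem_filter.1 hi
          exact mem_filter.2 ⟨hlower i hiB k (mem_filter.1 hk).1 hik,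
            hik.trans (mem_filter.1 hk).2⟩
      rw [heq]
      exact hB _ ⟨k, mem_filter.2 ⟨hsub (mem_filter.1 hk).1, le_rfl⟩⟩
    have hm0 : 0 ≤ m := hφ i0 hi0
    have hmM : m ≤ M := hM i0 hi0
    have key := ih B'.card hlt (φ := fun i => φ i - m) (M := M - m)
      (fun i hi => sub_nonneg.2 (mem_filter.1 hi).2.le)
      (fun i hi k hk hik => sub_le_sub_right (hanti i (hsub hi) k (hsub hk) hik) _)
      (fun i hi => sub_le_sub_right (hM i (hsub hi)) _) hB' (sub_nonneg.2 hmM) rfl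
    have hext : ∀ b : ι → ℝ, ∑ i ∈ B', (φ i - m) * b i = ∑ i ∈ B, (φ i - m) * b i := fun b => by
      refine sum_subset hsub fun i hi hi' => ?_
      have : φ i ≤ m := not_lt.1 fun h => hi' (mem_filter.2 ⟨hi, h⟩)
      rw [le_antisymm this (hmin i hi), sub_self, zero_mul]
    have h1 := hext a
    have h2 : ∑ i ∈ B', (φ i - m) = ∑ i ∈ B, φ i - B.card * m := by
      rw [show ∑ i ∈ B', (φ i - m) = ∑ i ∈ B', (φ i - m) * 1 by simp, hext fun _ => 1]
      simp [sum_sub_distrib]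
    obtain ⟨k, hk, hkmax⟩ := B.exists_max_image g hne
    have hall := hB (g k) ⟨k, mem_filter.2 ⟨hk, le_rfl⟩⟩
    rw [filter_true_of_mem hkmax] at hall
    have h3 : ∑ i ∈ B, φ i * a i = ∑ i ∈ B, (φ i - m) * a i + m * ∑ i ∈ B, a i := by
      rw [mul_sum, ← sum_add_distrib]
      exact sum_congr rfl fun i _ => by ring
    rw [h1, h2] at key
    nlinarith [mul_le_mul_of_nonneg_left hall hm0]

/-! ## Balance weights -/

lemma zWeight_nonneg (Di Dk : ℝ) : 0 ≤ zWeight Di Dk :=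
  div_nonneg (Real.sqrt_nonneg _)
    (mul_nonneg (zero_le_one.trans (le_max_right _ _)) (zero_le_one.trans (le_max_right _ _)))

lemma zWeight_comm (Di Dk : ℝ) : zWeight Di Dk = zWeight Dk Di := by
  rw [zWeight, zWeight, max_comm (max Di 1), mul_comm (max Di 1)]

lemma zWeight_eq {Di Dk : ℝ} (hi : 1 ≤ Di) (hk : 1 ≤ Dk) :
    zWeight Di Dk = Real.sqrt (max Di Dk) / (Di * Dk) := by
  rw [zWeight, max_eq_left hi, max_eq_left hk]

lemma zWeight_self {D : ℝ} (h : 1 ≤ D) : zWeight D D = (D * Real.sqrt D)⁻¹ := by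
  have h0 : 0 < D := by linarith
  have hs : Real.sqrt D * Real.sqrt D = D := Real.mul_self_sqrt h0.le
  rw [zWeight_eq h h, max_self]
  field_simp
  linarith

lemma inv_mul_le_zWeight {Di Dk : ℝ} (hi : 1 ≤ Di) (hk : 1 ≤ Dk) :
    (Di * Dk)⁻¹ ≤ zWeight Di Dk := by
  rw [zWeight_eq hi hk, inv_eq_one_div]
  exact div_le_div_of_nonneg_right (Real.one_le_sqrt.2 (hi.trans (le_max_left _ _)))
    (mul_nonneg (by linarith) (by linarith))

lemma zWeight_le_add {Di Dk : ℝ} (hi : 1 ≤ Di) (hk : 1 ≤ Dk) :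
    zWeight Di Dk ≤ (Real.sqrt Di * Dk)⁻¹ + (Di * Real.sqrt Dk)⁻¹ := by
  have h1 : 0 < Di := by linarith
  have h2 : 0 < Dk := by linarith
  have hsi : Real.sqrt Di * Real.sqrt Di = Di := Real.mul_self_sqrt h1.le
  have hsk : Real.sqrt Dk * Real.sqrt Dk = Dk := Real.mul_self_sqrt h2.le
  have e1 : Real.sqrt Di / (Di * Dk) = (Real.sqrt Di * Dk)⁻¹ := by field_simp; linarith
  have e2 : Real.sqrt Dk / (Di * Dk) = (Di * Real.sqrt Dk)⁻¹ := by field_simp; linarith
  rw [zWeight_eq hi hk, ← e1, ← e2, ← add_div]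
  refine div_le_div_of_nonneg_right ?_ (by positivity)
  rcases le_total Di Dk with h | h
  · rw [max_eq_right h]; linarith [Real.sqrt_nonneg Di]
  · rw [max_eq_left h]; linarith [Real.sqrt_nonneg Dk]

lemma zWeight_le_kappa {κ Di Dk : ℝ} (hκ : 1 ≤ κ) (hi : κ ≤ Di) (hk : κ ≤ Dk) :
    zWeight Di Dk ≤ 2 * (κ * Real.sqrt κ)⁻¹ := by
  have h0 : 0 < κ := by linarith
  refine (zWeight_le_add (hκ.trans hi) (hκ.trans hk)).trans ?_
  rw [two_mul]
  refine add_le_add (inv_anti₀ (by positivity) ?_) (inv_anti₀ (by positivity) ?_)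
  · rw [mul_comm κ]; gcongr
  · gcongr
    linarith

/-- Scaling: both new levels are at least one. -/
lemma zWeight_div {F Di Dk : ℝ} (hF : 1 ≤ F) (hi : F ≤ Di) (hk : F ≤ Dk) :
    zWeight (Di / F) (Dk / F) = F * Real.sqrt F * zWeight Di Dk := by
  have h0 : 0 < F := by linarith
  have hsF : Real.sqrt F * Real.sqrt F = F := Real.mul_self_sqrt h0.le
  rw [zWeight_eq (by rw [le_div_iff₀ h0]; linarith) (by rw [le_div_iff₀ h0]; linarith),
    zWeight_eq (hF.trans hi) (hF.trans hk), max_div_div_right h0.le Di Dk,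
    Real.sqrt_div' _ h0.le]
  have h1 : 0 < Di := by linarith
  have h2 : 0 < Dk := by linarith
  field_simp
  rw [sq, hsF]

theorem count_inv_sqrt : ∃ C : ℝ, 0 < C ∧
    ∀ (B : Finset ι) (D : ι → ℝ) (ε κ : ℝ), 1 ≤ κ → (∀ i ∈ B, κ ≤ D i) →
      (∀ x : ℝ, 1 ≤ x → ((B.filter fun i => D i ≤ x).card : ℝ) ≤ ε * x ^ (1 / 16 : ℝ)) →
      ∑ i ∈ B, (Real.sqrt (D i))⁻¹ ≤ C * ε * κ ^ (-(7 / 16) : ℝ) := by
  obtain ⟨C, hC, h⟩ := count_rpow (ι := ι) (show (1 : ℝ) / 16 < 1 / 2 by norm_num)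
  refine ⟨C, hC, fun B D ε κ hκ hD hB => ?_⟩
  have := h B D ε κ hκ hD hB
  rw [show (1 : ℝ) / 16 - 1 / 2 = -(7 / 16) by norm_num] at this
  refine le_trans (le_of_eq (sum_congr rfl fun i hi => ?_)) this
  rw [Real.sqrt_eq_rpow, Real.rpow_neg (by linarith [hD i hi])]

theorem count_inv : ∃ C : ℝ, 0 < C ∧
    ∀ (B : Finset ι) (D : ι → ℝ) (ε κ : ℝ), 1 ≤ κ → (∀ i ∈ B, κ ≤ D i) →
      (∀ x : ℝ, 1 ≤ x → ((B.filter fun i => D i ≤ x).card : ℝ) ≤ ε * x ^ (1 / 16 : ℝ)) →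
      ∑ i ∈ B, (D i)⁻¹ ≤ C * ε * κ ^ (-(15 / 16) : ℝ) := by
  obtain ⟨C, hC, h⟩ := count_rpow (ι := ι) (show (1 : ℝ) / 16 < 1 by norm_num)
  refine ⟨C, hC, fun B D ε κ hκ hD hB => ?_⟩
  have := h B D ε κ hκ hD hB
  rw [show (1 : ℝ) / 16 - 1 = -(15 / 16) by norm_num] at this
  refine le_trans (le_of_eq (sum_congr rfl fun i hi => ?_)) this
  rw [Real.rpow_neg (by linarith [hD i hi]), Real.rpow_one]

/-- The balance weights of all pairs of balanced coordinates sum to `O(ε²)`. -/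
theorem zWeight_sum : ∃ C : ℝ, 0 < C ∧
    ∀ (B : Finset ι) (D : ι → ℝ) (ε κ : ℝ), 1 ≤ κ → (∀ i ∈ B, κ ≤ D i) →
      (∀ x : ℝ, 1 ≤ x → ((B.filter fun i => D i ≤ x).card : ℝ) ≤ ε * x ^ (1 / 16 : ℝ)) →
      ∑ i ∈ B, ∑ k ∈ B, zWeight (D i) (D k) ≤ C * ε ^ 2 := by
  obtain ⟨C₁, hC₁, h₁⟩ := count_inv_sqrt (ι := ι)
  obtain ⟨C₂, hC₂, h₂⟩ := count_inv (ι := ι)
  refine ⟨2 * (C₁ * C₂), by positivity, fun B D ε κ hκ hD hB => ?_⟩
  have hε : 0 ≤ ε := by simpa using (Nat.cast_nonneg _).trans (hB 1 le_rfl)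
  have e1 : ∑ i ∈ B, (Real.sqrt (D i))⁻¹ ≤ C₁ * ε := (h₁ B D ε κ hκ hD hB).trans
    (mul_le_of_le_one_right (by positivity) (Real.rpow_le_one_of_one_le_of_nonpos hκ (by norm_num)))
  have e2 : ∑ i ∈ B, (D i)⁻¹ ≤ C₂ * ε := (h₂ B D ε κ hκ hD hB).trans
    (mul_le_of_le_one_right (by positivity) (Real.rpow_le_one_of_one_le_of_nonpos hκ (by norm_num)))
  have n1 : 0 ≤ ∑ i ∈ B, (Real.sqrt (D i))⁻¹ :=
    sum_nonneg fun i _ => inv_nonneg.2 (Real.sqrt_nonneg _)
  have n2 : 0 ≤ ∑ i ∈ B, (D i)⁻¹ :=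
    sum_nonneg fun i hi => inv_nonneg.2 (by linarith [hD i hi])
  calc ∑ i ∈ B, ∑ k ∈ B, zWeight (D i) (D k)
      ≤ ∑ i ∈ B, ∑ k ∈ B, ((Real.sqrt (D i))⁻¹ * (D k)⁻¹ + (D i)⁻¹ * (Real.sqrt (D k))⁻¹) :=
        sum_le_sum fun i hi => sum_le_sum fun k hk => by
          rw [← mul_inv, ← mul_inv]
          exact zWeight_le_add (hκ.trans (hD i hi)) (hκ.trans (hD k hk))
    _ = 2 * ((∑ i ∈ B, (Real.sqrt (D i))⁻¹) * ∑ i ∈ B, (D i)⁻¹) := by
        simp only [sum_add_distrib, ← mul_sum, ← sum_mul]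
        ring
    _ ≤ 2 * ((C₁ * ε) * (C₂ * ε)) := by
        refine mul_le_mul_of_nonneg_left (mul_le_mul e1 e2 n2 (n1.trans e1)) (by norm_num)
    _ = _ := by ring

/-! ## The shift equation -/

/-- A matrix close to `diag D` on `B` can be inverted, with energy bounds. -/
theorem solve_shift [Fintype ι] [DecidableEq ι] (B : Finset ι) (G : ι → ι → ℝ) (D : ι → ℝ)
    (hD : ∀ i ∈ B, 0 < D i)
    (hG : ∑ i ∈ B, ∑ k ∈ B, (G i k - if i = k then D i else 0) ^ 2 / (D i * D k) ≤ 1 / 4)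
    (t : ι → ℝ) :
    ∃ z : ι → ℝ, (∀ i ∉ B, z i = 0) ∧ (∀ i ∈ B, ∑ k ∈ B, G i k * z k = -t i) ∧
      ∑ i ∈ B, D i * z i ^ 2 ≤ 4 * ∑ i ∈ B, t i ^ 2 / D i ∧
      ∑ i ∈ B, ∑ k ∈ B, z i * G i k * z k ≤ 2 * ∑ i ∈ B, t i ^ 2 / D i := by
  classical
  have coer : ∀ z : ι → ℝ,
      (∑ i ∈ B, D i * z i ^ 2) / 2 ≤ ∑ i ∈ B, ∑ k ∈ B, z i * G i k * z k := by
    intro z
    set X := ∑ i ∈ B, D i * z i ^ 2
    set e : ι × ι → ℝ := fun p =>
      (G p.1 p.2 - if p.1 = p.2 then D p.1 else 0) / Real.sqrt (D p.1 * D p.2)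
    set f : ι × ι → ℝ := fun p => Real.sqrt (D p.1 * D p.2) * (z p.1 * z p.2)
    have h1 : ∑ i ∈ B, ∑ k ∈ B, z i * G i k * z k = X + ∑ p ∈ B ×ˢ B, e p * f p := by
      rw [sum_product, ← sum_add_distrib]
      refine sum_congr rfl fun i hi => ?_
      have : ∑ k ∈ B, e (i, k) * f (i, k)
          = ∑ k ∈ B, z i * G i k * z k - D i * z i ^ 2 := by
        have h' : ∀ k ∈ B, e (i, k) * f (i, k)
            = z i * G i k * z k - if i = k then D i * z i ^ 2 else 0 := by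
          intro k hk
          have hs : 0 < Real.sqrt (D i * D k) := Real.sqrt_pos.2 (mul_pos (hD i hi) (hD k hk))
          simp only [e, f]
          rw [div_mul_eq_mul_div, mul_div_assoc, mul_div_cancel_left₀ _ hs.ne']
          split_ifs with h
          · subst h; ring
          · ring
        rw [sum_congr rfl h', sum_sub_distrib, sum_ite_eq, if_pos hi]
      rw [this]; ring
    have h2 := sum_mul_sq_le_sq_mul_sq (B ×ˢ B) e f
    have h3 : ∑ p ∈ B ×ˢ B, e p ^ 2 ≤ 1 / 4 := by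
      rw [sum_product]
      refine le_trans (le_of_eq (sum_congr rfl fun i hi => sum_congr rfl fun k hk => ?_)) hG
      simp only [e]
      rw [div_pow, Real.sq_sqrt (mul_pos (hD i hi) (hD k hk)).le]
    have h4 : ∑ p ∈ B ×ˢ B, f p ^ 2 = X ^ 2 := by
      rw [sq X, sum_mul_sum, sum_product]
      refine sum_congr rfl fun i hi => sum_congr rfl fun k hk => ?_
      simp only [f]
      rw [mul_pow, Real.sq_sqrt (mul_pos (hD i hi) (hD k hk)).le]
      ring
    have hX : 0 ≤ X := sum_nonneg fun i hi => mul_nonneg (hD i hi).le (sq_nonneg _)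
    have h5 : (∑ p ∈ B ×ˢ B, e p * f p) ^ 2 ≤ (X / 2) ^ 2 := by
      refine h2.trans ?_
      rw [h4]
      nlinarith [mul_le_mul_of_nonneg_right h3 (sq_nonneg X)]
    have h6 := abs_le_of_sq_le_sq h5 (by positivity)
    rw [abs_le] at h6
    linarith
  let L : (ι → ℝ) →ₗ[ℝ] (ι → ℝ) :=
    { toFun := fun z i => if i ∈ B then ∑ k ∈ B, G i k * z k else z i
      map_add' := fun z z' => by
        funext i; simp only [Pi.add_apply]; split_ifs <;> simp [mul_add, sum_add_distrib]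
      map_smul' := fun c z => by
        funext i
        simp only [Pi.smul_apply, smul_eq_mul, RingHom.id_apply]
        split_ifs <;> simp [mul_left_comm, mul_sum] }
  have hinj : Function.Injective L := by
    rw [← LinearMap.ker_eq_bot, LinearMap.ker_eq_bot']
    intro z hz
    have hz' : ∀ i, (if i ∈ B then ∑ k ∈ B, G i k * z k else z i) = 0 := fun i => congrFun hz i
    have h0 : ∑ i ∈ B, ∑ k ∈ B, z i * G i k * z k = 0 := sum_eq_zero fun i hi => by
      have := hz' i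
      rw [if_pos hi] at this
      simp only [mul_assoc, ← mul_sum, this, mul_zero]
    have := coer z
    rw [h0] at this
    funext i
    by_cases hi : i ∈ B
    · have hpos : ∀ k ∈ B, 0 ≤ D k * z k ^ 2 := fun k hk => mul_nonneg (hD k hk).le (sq_nonneg _)
      have hz0 : ∑ k ∈ B, D k * z k ^ 2 = 0 := le_antisymm (by linarith) (sum_nonneg hpos)
      have := (sum_eq_zero_iff_of_nonneg hpos).1 hz0 i hi
      simpa [(hD i hi).ne'] using this
    · simpa [hi] using hz' i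
  obtain ⟨z, hz⟩ := LinearMap.injective_iff_surjective.1 hinj fun i => if i ∈ B then -t i else 0
  have hz' : ∀ i, (if i ∈ B then ∑ k ∈ B, G i k * z k else z i)
      = if i ∈ B then -t i else 0 := fun i => congrFun hz i
  have heq : ∀ i ∈ B, ∑ k ∈ B, G i k * z k = -t i := fun i hi => by simpa [hi] using hz' i
  refine ⟨z, fun i hi => by simpa [hi] using hz' i, heq, ?_⟩
  set X := ∑ i ∈ B, D i * z i ^ 2
  set A := ∑ i ∈ B, t i ^ 2 / D i
  have hX : 0 ≤ X := sum_nonneg fun i hi => mul_nonneg (hD i hi).le (sq_nonneg _)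
  have hA : 0 ≤ A := sum_nonneg fun i hi => div_nonneg (sq_nonneg _) (hD i hi).le
  set q := ∑ i ∈ B, ∑ k ∈ B, z i * G i k * z k with hqdef
  have hq : q = -∑ i ∈ B, z i * t i := by
    rw [hqdef, ← sum_neg_distrib]
    refine sum_congr rfl fun i hi => ?_
    simp only [mul_assoc, ← mul_sum, heq i hi, mul_neg]
  have hCS : (∑ i ∈ B, z i * t i) ^ 2 ≤ X * A :=
    sum_sq_le_sum_mul_sum_of_sq_le_mul B (fun i hi => mul_nonneg (hD i hi).le (sq_nonneg _))
      (fun i hi => div_nonneg (sq_nonneg _) (hD i hi).le) fun i hi => by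
        have := (hD i hi).ne'
        refine le_of_eq ?_
        field_simp
  have hc := coer z
  rw [← hqdef] at hc
  have hq0 : 0 ≤ q := le_trans (by positivity) hc
  have hq2 : q ^ 2 ≤ X * A := by rw [hq, neg_sq]; exact hCS
  have hq3 : q ≤ 2 * A := by nlinarith
  exact ⟨by linarith, hq3⟩

/-! ## Gram matrices and second moments -/

variable {n d : ℕ} (v : Fin n → Fin d → ℝ)

lemma gram_comm (U : Finset (Fin n)) (i k : Fin d) : gram v U i k = gram v U k i :=
  sum_congr rfl fun x _ => mul_comm _ _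

lemma gram_diag_nonneg (U : Finset (Fin n)) (i : Fin d) : 0 ≤ gram v U i i :=
  sum_nonneg fun x _ => mul_self_nonneg _

lemma gram_diag_mono {U U' : Finset (Fin n)} (h : U ⊆ U') (i : Fin d) :
    gram v U i i ≤ gram v U' i i :=
  sum_le_sum_of_subset_of_nonneg h fun x _ _ => mul_self_nonneg _

lemma gram_union {U U' : Finset (Fin n)} (h : Disjoint U U') (i k : Fin d) :
    gram v (U ∪ U') i k = gram v U i k + gram v U' i k := sum_union h

lemma gram_sq_le (U : Finset (Fin n)) (i k : Fin d) :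
    gram v U i k ^ 2 ≤ gram v U i i * gram v U k k := by
  have := sum_mul_sq_le_sq_mul_sq U (fun x => v x i) (fun x => v x k)
  simpa [gram, sq] using this

/-- The Gram form is the energy of the shift. -/
lemma gram_form (U : Finset (Fin n)) (B : Finset (Fin d)) (z : Fin d → ℝ) :
    ∑ i ∈ B, ∑ k ∈ B, z i * gram v U i k * z k
      = ∑ x ∈ U, (∑ i ∈ B, z i * v x i) ^ 2 := by
  simp only [gram, sq, mul_sum, sum_mul]
  refine (sum_congr rfl fun i _ => sum_comm).trans (sum_comm.trans ?_)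
  exact sum_congr rfl fun x _ => sum_congr rfl fun i _ => sum_congr rfl fun k _ => by ring

/-- The equation of the shift, as a first-order statistic. -/
lemma gram_mul_eq_lin (U : Finset (Fin n)) (B : Finset (Fin d)) (z : Fin d → ℝ) (i : Fin d) :
    ∑ k ∈ B, gram v U i k * z k = lin v U (fun x => ∑ k ∈ B, z k * v x k) i := by
  simp only [gram, lin, sum_mul]
  rw [sum_comm]
  exact sum_congr rfl fun x _ => sum_congr rfl fun k _ => by ring

/-- The size of a shift. -/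
lemma abs_shift_le (hv : ∀ x, ∑ i, v x i ^ 2 ≤ 1) {B : Finset (Fin d)} {D z : Fin d → ℝ} {κ E : ℝ}
    (hκ : 0 < κ) (hD : ∀ i ∈ B, κ ≤ D i) (hE : ∑ i ∈ B, D i * z i ^ 2 ≤ 4 * E) (x : Fin n) :
    |∑ i ∈ B, z i * v x i| ≤ 2 * Real.sqrt (E / κ) := by
  have h1 : (∑ i ∈ B, z i * v x i) ^ 2 ≤ (∑ i ∈ B, z i ^ 2) * 1 :=
    (sum_mul_sq_le_sq_mul_sq B z (v x)).trans (mul_le_mul_of_nonneg_left
      ((sum_le_sum_of_subset_of_nonneg (subset_univ B) fun i _ _ => sq_nonneg _).trans (hv x))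
      (sum_nonneg fun i _ => sq_nonneg _))
  have h2 : κ * ∑ i ∈ B, z i ^ 2 ≤ 4 * E := by
    rw [mul_sum]
    exact (sum_le_sum fun i hi => mul_le_mul_of_nonneg_right (hD i hi) (sq_nonneg _)).trans hE
  have hE0 : 0 ≤ E := by
    have : 0 ≤ κ * ∑ i ∈ B, z i ^ 2 := mul_nonneg hκ.le (sum_nonneg fun i _ => sq_nonneg _)
    linarith
  refine abs_le_of_sq_le_sq (le_trans h1 ?_) (by positivity)
  rw [mul_one, mul_pow, Real.sq_sqrt (div_nonneg hE0 hκ.le), ← mul_div_assoc, le_div_iff₀ hκ]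
  linarith

/-- A weighted sum of a coordinate. -/
lemma drift_sq (U : Finset (Fin n)) (c : Fin n → ℝ) (i : Fin d) :
    lin v U c i ^ 2 ≤ (∑ x ∈ U, c x ^ 2) * gram v U i i := by
  have := sum_mul_sq_le_sq_mul_sq U c (fun x => v x i)
  simpa [lin, gram, sq] using this

/-- A weighted sum of products, against the first diagonal entry. -/
lemma quad_sq_le (hv : ∀ x, ∑ i, v x i ^ 2 ≤ 1) (U : Finset (Fin n)) (c : Fin n → ℝ)
    (i k : Fin d) : quad v U c i k ^ 2 ≤ (∑ x ∈ U, c x ^ 2) * gram v U i i := by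
  have h1 := sum_mul_sq_le_sq_mul_sq U c (fun x => v x i * v x k)
  refine h1.trans (mul_le_mul_of_nonneg_left (sum_le_sum fun x _ => ?_)
    (sum_nonneg fun x _ => sq_nonneg _))
  have h2 : v x k ^ 2 ≤ 1 :=
    (single_le_sum (f := fun i => v x i ^ 2) (fun i _ => sq_nonneg _) (mem_univ k)).trans (hv x)
  nlinarith [sq_nonneg (v x i)]

lemma quad_comm (U : Finset (Fin n)) (c : Fin n → ℝ) (i k : Fin d) :
    quad v U c i k = quad v U c k i :=
  sum_congr rfl fun x _ => by ring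

/-- A weighted sum of products, against the smaller diagonal entry. -/
lemma quad_sq_le_min (hv : ∀ x, ∑ i, v x i ^ 2 ≤ 1) (U : Finset (Fin n)) (c : Fin n → ℝ)
    (i k : Fin d) :
    quad v U c i k ^ 2 ≤ (∑ x ∈ U, c x ^ 2) * min (gram v U i i) (gram v U k k) := by
  rw [mul_min_of_nonneg _ _ (sum_nonneg fun x _ => sq_nonneg _)]
  exact le_min (quad_sq_le v hv U c i k) (quad_comm v U c i k ▸ quad_sq_le v hv U c k i)

end Vale.Agent.P262
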