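import Mathlib

/-!
The lower bound `c √d` for the Euclidean Steinitz constant: the basis vectors together with `d`
copies of `-(1/d) ∑ eᵢ`.
-/

namespace Vale.Agent.P262

open Finset

/-- For every `d ≥ 1` some zero-sum family of `2 d` vectors in the unit ball has, in every order,
a partial sum of norm at least `√d / 3`. -/
theorem steinitz_lower (d : ℕ) (hd : 1 ≤ d) :
    ∃ v : Fin (2 * d) → EuclideanSpace ℝ (Fin d), (∀ i, ‖v i‖ ≤ 1) ∧ ∑ i, v i = 0 ∧
      ∀ π : Equiv.Perm (Fin (2 * d)), ∃ k ≤ 2 * d,
        Real.sqrt d / 3 ≤ ‖∑ i ∈ univ.filter (fun i : Fin (2 * d) => (i : ℕ) < k), v (π i)‖ := by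
  classical
  have hd' : (1 : ℝ) ≤ d := by exact_mod_cast hd
  set v : Fin (2 * d) → EuclideanSpace ℝ (Fin d) := fun i =>
    if h : (i : ℕ) < d then EuclideanSpace.single ⟨i, h⟩ (1 : ℝ)
    else WithLp.toLp 2 (fun _ => -(1 / (d : ℝ))) with hv
  have hcoord : ∀ i j, v i j = if (i : ℕ) < d then (if (i : ℕ) = j then 1 else 0)
      else -(1 / (d : ℝ)) := by
    intro i j
    simp only [hv]
    by_cases h : (i : ℕ) < d <;> simp [h, Fin.ext_iff, eq_comm]
  have hsumd : ∀ s : Finset (Fin (2 * d)), ∀ j : Fin d, (∑ i ∈ s, v i) j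
      = (if (⟨j, by omega⟩ : Fin (2 * d)) ∈ s then (1 : ℝ) else 0)
        - ((s.filter fun i : Fin (2 * d) => ¬ (i : ℕ) < d).card : ℝ) / d := by
    intro s j
    rw [WithLp.ofLp_sum, Finset.sum_apply]
    rw [Finset.sum_congr rfl fun i _ => hcoord i j,
      ← Finset.sum_filter_add_sum_filter_not s (fun i : Fin (2 * d) => (i : ℕ) < d)]
    rw [Finset.sum_congr rfl (fun i hi => if_pos (Finset.mem_filter.1 hi).2),
      Finset.sum_congr (s₁ := s.filter fun i : Fin (2 * d) => ¬ (i : ℕ) < d) rfl
        (fun i hi => if_neg (Finset.mem_filter.1 hi).2), Finset.sum_const, nsmul_eq_mul]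
    have h1 : (∑ i ∈ s.filter (fun i : Fin (2 * d) => (i : ℕ) < d),
        if (i : ℕ) = (j : ℕ) then (1 : ℝ) else 0)
        = if (⟨j, by omega⟩ : Fin (2 * d)) ∈ s then (1 : ℝ) else 0 := by
      rw [Finset.sum_congr rfl (g := fun i : Fin (2 * d) =>
        if i = (⟨j, by omega⟩ : Fin (2 * d)) then (1 : ℝ) else 0) (fun i _ => by
          simp [Fin.ext_iff]), Finset.sum_ite_eq']
      simp
    rw [h1]; ring
  refine ⟨v, fun i => ?_, ?_, fun π => ?_⟩
  · rw [EuclideanSpace.norm_eq, Real.sqrt_le_one]
    simp only [hcoord, Real.norm_eq_abs, sq_abs]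
    by_cases h : (i : ℕ) < d
    · rw [Finset.sum_eq_single (⟨i, h⟩ : Fin d)]
      · simp [h]
      · intro b _ hb
        simp [h]
        exact fun e => hb (Fin.ext e.symm)
      · simp
    · simp only [h, if_false, sum_const, card_univ, Fintype.card_fin, nsmul_eq_mul]
      rw [neg_sq, div_pow, one_pow, mul_one_div, div_le_one (by positivity)]
      nlinarith
  · ext j
    rw [hsumd univ j]
    have : (univ.filter fun i : Fin (2 * d) => ¬ (i : ℕ) < d).card = d := by
      have h := Finset.card_filter_add_card_filter_not (s := (univ : Finset (Fin (2 * d))))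
        (fun i : Fin (2 * d) => (i : ℕ) < d)
      rw [Fin.card_filter_val_lt, card_univ, Fintype.card_fin] at h
      omega
    rw [this, div_self (by positivity)]
    simp
  · -- the prefix
    set S : ℕ → Finset (Fin (2 * d)) := fun k =>
      (univ.filter fun i : Fin (2 * d) => (i : ℕ) < k).image π with hS
    have hsum : ∀ k, ∑ i ∈ univ.filter (fun i : Fin (2 * d) => (i : ℕ) < k), v (π i)
        = ∑ i ∈ S k, v i := fun k => by
      rw [hS, Finset.sum_image fun a _ b _ h => π.injective h]
    set p : ℕ → ℕ := fun k => (univ.filter fun j : Fin d =>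
      (⟨j, by omega⟩ : Fin (2 * d)) ∈ S k).card with hp
    have hnorm : ∀ k, (p k : ℝ) * (d - p k) / d
        ≤ ‖∑ i ∈ S k, v i‖ ^ 2 := by
      intro k
      set q : ℝ := (((S k).filter fun i : Fin (2 * d) => ¬ (i : ℕ) < d).card : ℝ)
      rw [EuclideanSpace.norm_sq_eq]
      simp only [hsumd, Real.norm_eq_abs, sq_abs]
      have hsplit : ∑ j : Fin d, ((if (⟨j, by omega⟩ : Fin (2 * d)) ∈ S k then (1 : ℝ) else 0)
          - q / d) ^ 2 = p k * (1 - q / d) ^ 2 + (d - p k) * (q / d) ^ 2 := by
        have : ∀ j : Fin d, ((if (⟨j, by omega⟩ : Fin (2 * d)) ∈ S k then (1 : ℝ) else 0)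
            - q / d) ^ 2 = (if (⟨j, by omega⟩ : Fin (2 * d)) ∈ S k then 1 - 2 * (q / d) else 0)
              + (q / d) ^ 2 := fun j => by split_ifs <;> ring
        rw [Finset.sum_congr rfl fun j _ => this j, Finset.sum_add_distrib, Finset.sum_ite,
          Finset.sum_const_zero, Finset.sum_const, Finset.sum_const, card_univ, Fintype.card_fin]
        simp only [nsmul_eq_mul, add_zero, hp]
        ring
      rw [hsplit, div_le_iff₀ (by positivity)]
      have hq : ((p k : ℝ) * (1 - q / d) ^ 2 + ((d : ℝ) - p k) * (q / d) ^ 2) * d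
          = (p k : ℝ) * (d - p k) + (q - p k) ^ 2 := by
        field_simp
        ring
      rw [hq]; nlinarith [sq_nonneg (q - p k)]
    rcases Nat.lt_or_ge d 2 with h2 | h2
    · obtain rfl : d = 1 := by omega
      refine ⟨1, by norm_num, ?_⟩
      have : (univ.filter fun i : Fin (2 * 1) => (i : ℕ) < 1) = {⟨0, by norm_num⟩} := by
        ext i; simp only [mem_filter, mem_univ, true_and, mem_singleton, Fin.ext_iff]; omega
      rw [this, Finset.sum_singleton, EuclideanSpace.norm_eq]
      rw [Fin.sum_univ_one, Nat.cast_one, Real.sqrt_one, Real.norm_eq_abs, sq_abs, hcoord]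
      rw [Real.le_sqrt (by norm_num) (sq_nonneg _)]
      split_ifs with h1 h3
      · norm_num
      · simp only [Fin.val_zero] at h3; omega
      · norm_num
    · have hp0 : p 0 = 0 := by simp [hp, hS]
      have hpd : p (2 * d) = d := by
        simp only [hp]
        rw [Finset.filter_true_of_mem, card_univ, Fintype.card_fin]
        intro j _
        simp only [hS, mem_image, mem_filter, mem_univ, true_and]
        exact ⟨π.symm ⟨j, by omega⟩, Fin.is_lt _, π.apply_symm_apply _⟩
      have hstep : ∀ k, p (k + 1) ≤ p k + 1 := by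
        intro k
        have hsub : (univ.filter fun j : Fin d => (⟨j, by omega⟩ : Fin (2 * d)) ∈ S (k + 1))
            ⊆ (univ.filter fun j : Fin d => (⟨j, by omega⟩ : Fin (2 * d)) ∈ S k)
              ∪ (univ.filter fun j : Fin d =>
                ∃ h : k < 2 * d, (j : ℕ) = ((π ⟨k, h⟩ : Fin (2 * d)) : ℕ)) := by
          intro j hj
          simp only [hS, mem_filter, mem_univ, true_and, mem_image, mem_union] at hj ⊢
          obtain ⟨i, hi, hij⟩ := hj
          rcases Nat.lt_succ_iff_lt_or_eq.1 hi with h | h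
          · exact Or.inl ⟨i, h, hij⟩
          · subst h
            exact Or.inr ⟨i.2, by rw [Fin.eta, hij]⟩
        refine (Finset.card_le_card hsub).trans ((Finset.card_union_le _ _).trans ?_)
        refine add_le_add le_rfl (Finset.card_le_one.2 fun a ha b hb => ?_)
        simp only [mem_filter, mem_univ, true_and] at ha hb
        obtain ⟨h, ha⟩ := ha
        obtain ⟨_, hb⟩ := hb
        exact Fin.ext (ha.trans hb.symm)
      have hex : ∃ k, d / 2 ≤ p k := ⟨2 * d, by omega⟩
      set k := Nat.find hex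
      have hk : d / 2 ≤ p k := Nat.find_spec hex
      have hk2 : k ≤ 2 * d := Nat.find_le (by omega)
      have hk3 : p k = d / 2 := by
        refine le_antisymm ?_ hk
        rcases Nat.eq_zero_or_pos k with h | h
        · rw [h, hp0]; omega
        · have := Nat.find_min hex (show k - 1 < k by omega)
          have := hstep (k - 1)
          rw [Nat.sub_add_cancel h] at this
          omega
      refine ⟨k, hk2, ?_⟩
      rw [hsum k]
      refine le_trans ?_ (Real.sqrt_le_sqrt (hnorm k) |>.trans_eq (Real.sqrt_sq (norm_nonneg _)))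
      rw [hk3, Real.le_sqrt (by positivity) ?_]
      · rw [div_pow, Real.sq_sqrt (by positivity), le_div_iff₀ (by positivity)]
        have h1 : (2 * (d / 2) : ℕ) ≤ d ∧ d ≤ 2 * (d / 2) + 1 := by omega
        obtain ⟨h1, h3⟩ := h1
        have h1' : (2 : ℝ) * ((d / 2 : ℕ) : ℝ) ≤ d := by exact_mod_cast h1
        have h3' : (d : ℝ) ≤ 2 * ((d / 2 : ℕ) : ℝ) + 1 := by exact_mod_cast h3
        have h2' : (2 : ℝ) ≤ d := by exact_mod_cast h2
        nlinarith
      · refine div_nonneg (mul_nonneg (by positivity) ?_) (by positivity)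
        have : ((d / 2 : ℕ) : ℝ) ≤ d := by exact_mod_cast Nat.div_le_self d 2
        linarith

end Vale.Agent.P262
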