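import Vale.Agent.P262.Step.Main

/-!
# P262: running the steps

From the one-step theorem and a schedule, a family with diagonal Gram matrix and norms in
`[1/2, 1]` has an order with all prefixes `O(√d)`.
-/

open scoped BigOperators

namespace Vale.Agent.P262

variable {n d : ℕ}

/-- The `i`-th coordinate of the sum of a list of items. -/
def psum (v : Fin n → Fin d → ℝ) (l : List (Fin n)) (i : Fin d) : ℝ :=
  (l.map fun x => v x i).sum

lemma psum_append (v : Fin n → Fin d → ℝ) (l l' : List (Fin n)) (i : Fin d) :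
    psum v (l ++ l') i = psum v l i + psum v l' i := by
  simp [psum]

lemma psum_eq_vsum (v : Fin n → Fin d → ℝ) {l : List (Fin n)} (h : l.Nodup) (i : Fin d) :
    psum v l i = vsum v l.toFinset i := by
  simp [psum, vsum, List.sum_toFinset (fun x => v x i) h]

/-- The items of `U` can be listed so that all prefixes from `a` have squared norm at most `R`. -/
def Orderable (v : Fin n → Fin d → ℝ) (R : ℝ) (U : Finset (Fin n)) (a : Fin d → ℝ) : Prop :=
  ∃ l : List (Fin n), l.Nodup ∧ l.toFinset = U ∧ ∀ k, ∑ i, (a i + psum v (l.take k) i) ^ 2 ≤ R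

lemma orderable_leaf (v : Fin n → Fin d → ℝ) (hv : ∀ x, ∑ i, v x i ^ 2 ≤ 1) (U : Finset (Fin n))
    (a : Fin d → ℝ) {A B R : ℝ} (ha : ∑ i, a i ^ 2 ≤ A) (hU : (U.card : ℝ) ≤ B)
    (hR : 2 * A + 2 * B ^ 2 ≤ R) : Orderable v R U a := by
  refine ⟨U.toList, U.nodup_toList, U.toList_toFinset, fun k => le_trans ?_ hR⟩
  have hn : (U.toList.take k).Nodup := U.nodup_toList.sublist (List.take_sublist _ _)
  set V := (U.toList.take k).toFinset
  have hV : (V.card : ℝ) ≤ B := by
    refine le_trans ?_ hU
    exact_mod_cast Finset.card_le_card fun x hx => by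
      simpa using List.mem_of_mem_take (List.mem_toFinset.1 hx)
  calc ∑ i, (a i + psum v (U.toList.take k) i) ^ 2
      ≤ ∑ i, (2 * a i ^ 2 + 2 * ((V.card : ℝ) * ∑ x ∈ V, v x i ^ 2)) :=
        Finset.sum_le_sum fun i _ => by
          have h : psum v (U.toList.take k) i ^ 2 ≤ (V.card : ℝ) * ∑ x ∈ V, v x i ^ 2 := by
            rw [psum_eq_vsum v hn]; exact sq_sum_le_card_mul_sum_sq
          nlinarith [sq_nonneg (a i - psum v (U.toList.take k) i)]
    _ ≤ 2 * A + 2 * B ^ 2 := by
        rw [Finset.sum_add_distrib, ← Finset.mul_sum, ← Finset.mul_sum, ← Finset.mul_sum,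
          Finset.sum_comm]
        have h1 : ∑ x ∈ V, ∑ i, v x i ^ 2 ≤ V.card :=
          (Finset.sum_le_sum fun x _ => hv x).trans (by simp)
        have h2 : (0 : ℝ) ≤ V.card := Nat.cast_nonneg _
        nlinarith

lemma orderable_concat (v : Fin n → Fin d → ℝ) {R : ℝ} :
    ∀ (m : ℕ) (part : Fin m → Finset (Fin n)) (p : Fin (m + 1) → Fin d → ℝ),
    (∀ k k', k ≠ k' → Disjoint (part k) (part k')) →
    (∀ (k : Fin m) (i : Fin d), p k.succ i = p k.castSucc i + vsum v (part k) i) →
    (∑ i, p 0 i ^ 2 ≤ R) → (∀ k : Fin m, Orderable v R (part k) (p k.castSucc)) →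
    Orderable v R (Finset.univ.biUnion part) (p 0) := by
  intro m
  induction m with
  | zero =>
    intro part p _ _ h0 _
    exact ⟨[], List.nodup_nil, by simp, fun k => by simpa [psum] using h0⟩
  | succ m ih =>
    intro part p hdisj hp h0 hord
    obtain ⟨l, hl, hlU, hlR⟩ := hord 0
    have h1 : p 1 = fun i => p 0 i + psum v l i := by
      funext i
      rw [psum_eq_vsum v hl, hlU]
      simpa using hp 0 i
    have hR1 : ∑ i, p 1 i ^ 2 ≤ R := by
      have := hlR l.length
      rw [List.take_length] at this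
      simpa [h1] using this
    obtain ⟨l', hl', hlU', hlR'⟩ := ih (fun k => part k.succ) (fun k => p k.succ)
      (fun k k' h => hdisj _ _ fun e => h (Fin.succ_injective _ e))
      (fun k i => by simpa only [Fin.succ_castSucc] using hp k.succ i)
      (by simpa using hR1) (fun k => by simpa only [Fin.succ_castSucc] using hord k.succ)
    refine ⟨l ++ l', hl.append hl' ?_, ?_, fun k => ?_⟩
    · intro x hx hx'
      rw [← List.mem_toFinset, hlU] at hx
      rw [← List.mem_toFinset, hlU'] at hx'
      obtain ⟨k, -, hk⟩ := Finset.mem_biUnion.1 hx'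
      exact Finset.disjoint_left.1 (hdisj 0 k.succ (Fin.succ_ne_zero k).symm) hx hk
    · rw [List.toFinset_append, hlU, hlU']
      ext x
      simp [Fin.exists_fin_succ]
    · rw [List.take_append]
      rcases le_or_gt k l.length with h | h
      · rw [Nat.sub_eq_zero_of_le h, List.take_zero, List.append_nil]
        exact hlR k
      · rw [List.take_of_length_le h.le]
        have := hlR' (k - l.length)
        simp only [Fin.succ_zero_eq_one, h1] at this
        simpa [psum_append, add_assoc] using this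

/-- Squared norm of the endpoint of a node. -/
lemma NodeInv.sum_sq {P : Consts} {g : Fin d → ℝ} {S : Sched P g} {v : Fin n → Fin d → ℝ} {j : ℕ}
    {U : Finset (Fin n)} {a b : Fin d → ℝ} (h : NodeInv S v j U a b) (hg : ∀ i, 0 ≤ g i)
    (hK : 0 ≤ P.K) : ∑ i, a i ^ 2 ≤ 15 * (S.Bud j + P.K * d) := by
  have h := h.pot_fst (∑ i, g i)
  have hall : (S.Bal j).filter (fun i => g i ≤ ∑ k, g k) = S.Bal j :=
    Finset.filter_true_of_mem fun i _ => Finset.single_le_sum (fun k _ => hg k) (Finset.mem_univ i)
  rw [hall] at h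
  have hc : ((S.Bal j).card : ℝ) ≤ d := by
    exact_mod_cast (Finset.card_le_univ _).trans (Fintype.card_fin d).le
  have h1 : ∑ i ∈ S.Poor j, a i ^ 2 ≤ 15 * ∑ i ∈ S.Poor j, a i ^ 2 / S.beta j i := by
    rw [Finset.mul_sum]
    refine Finset.sum_le_sum fun i _ => ?_
    have hb := S.two_le_beta j i
    rw [mul_div_assoc', le_div_iff₀ (by linarith)]
    nlinarith [S.beta_le j i, sq_nonneg (a i)]
  have h2 : 0 ≤ ∑ i ∈ S.Bal j, a i ^ 2 := Finset.sum_nonneg fun i _ => sq_nonneg _
  rw [← Finset.sum_sdiff (Finset.subset_univ (S.Bal j)), ← Sched.Poor]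
  nlinarith

/-- The core theorem. -/
theorem core (hSched : ScheduleProp) (hStep : StepProp) :
    ∃ C : ℝ, ∀ (n d : ℕ) (v : Fin n → Fin d → ℝ), 0 < d →
      (∀ x, ∑ i, v x i ^ 2 ≤ 1) → (∀ x, 1 / 4 ≤ ∑ i, v x i ^ 2) →
      (∀ i, vsum v Finset.univ i = 0) →
      (∀ i k, i ≠ k → gram v Finset.univ i k = 0) →
      Orderable v (C * d) Finset.univ (fun _ => 0) := by
  obtain ⟨P, hK, hC0, hε, hε1, hz, hCb, hstep⟩ := hStep
  obtain ⟨C, hC, hsched⟩ := hSched P.C0 P.ε hC0 hε hε1
  set R0 := C * P.Cb ^ 2 + P.K + 1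
  refine ⟨32 * P.Cb * R0 + 2 * P.Cb ^ 2, fun n d v hd hv hv' hsum horth => ?_⟩
  set g : Fin d → ℝ := fun i => gram v Finset.univ i i with hgdef
  have hg : ∀ i, 0 ≤ g i := fun i => Finset.sum_nonneg fun x _ => mul_self_nonneg _
  obtain ⟨S, hS, hBud, hev⟩ := hsched P rfl rfl hCb d g hd hg
  obtain ⟨J, hJ⟩ := Filter.eventually_atTop.1 hev
  set R := (32 * P.Cb * R0 + 2 * P.Cb ^ 2) * d with hR
  have hd1 : (1 : ℝ) ≤ d := by exact_mod_cast hd
  have hR0 : ∀ j, S.Bud j + P.K * d + d ≤ R0 * d := fun j => by
    have := hBud j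
    simp only [R0]
    nlinarith
  have hstart : ∀ j U a b, NodeInv S v j U a b → ∑ i, a i ^ 2 ≤ R := fun j U a b h => by
    have h1 := h.sum_sq hg hK.le
    have h2 := hR0 j
    have h3 : 0 ≤ R0 * d := by positivity
    have h4 : 0 ≤ 2 * P.Cb ^ 2 * d := by positivity
    simp only [hR]
    nlinarith
  have main : ∀ t j U a b, J ≤ j + t → NodeInv S v j U a b → Orderable v R U a := by
    intro t
    induction t with
    | zero =>
      intro j U a b hj h
      obtain ⟨hbal, hT⟩ := hJ j hj
      have hU : U = ∅ := by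
        rw [Finset.eq_empty_iff_forall_notMem]
        intro x hx
        have hp : S.Poor j = Finset.univ := by simp [Sched.Poor, hbal]
        have h1 := h.poor_le
        rw [← Step.sum_pshare (S := S)] at h1
        have h2 : 1 / 4 ≤ Step.pshare S v j x := by
          refine (hv' x).trans ?_
          rw [Step.pshare, hp]
          exact Finset.sum_le_sum fun i _ =>
            le_mul_of_one_le_left (sq_nonneg _) (S.one_le_theta j i)
        linarith [Finset.single_le_sum (fun y _ => Step.pshare_nonneg (S := S) (v := v) (j := j) y) hx]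
      refine ⟨[], List.nodup_nil, by simp [hU], fun k => ?_⟩
      simpa [psum] using hstart j U a b h
    | succ t ih =>
      intro j U a b hj h
      obtain ⟨m, part, p, hmem, hdisj, hp0, hplast, hpart⟩ := hstep n d g S hS hg v hv j U a b h
      have hU : U = Finset.univ.biUnion part := by ext x; simp [hmem]
      rw [hU, ← hp0]
      refine orderable_concat v m part p hdisj (fun k i => ?_)
        (hp0 ▸ hstart j U a b h) (fun k => ?_)
      · rcases hpart k with h' | ⟨-, h', -⟩
        · exact h'.sum_eq i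
        · exact h' i
      · rcases hpart k with h' | ⟨hc, -, ha⟩
        · exact ih (j + 1) _ _ _ (by omega) h'
        · refine orderable_leaf v hv _ _ (le_trans ha ?_) hc (A := P.Cb * (R0 * d)) ?_
          · refine mul_le_mul_of_nonneg_left ?_ (by linarith)
            have := hR0 (j + 1)
            nlinarith
          · simp only [hR]
            have h1 : 0 ≤ P.Cb * (R0 * d) := by positivity
            have h2 : 0 ≤ P.Cb ^ 2 := by positivity
            nlinarith
  have hroot : NodeInv S v 0 Finset.univ (fun _ => 0) (fun _ => 0) := by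
    refine ⟨fun i => by simp [hsum i], ?_, ?_, ?_, ?_, ?_⟩
    · refine le_trans (le_of_eq ?_) hz
      refine Finset.sum_eq_zero fun i _ => Finset.sum_eq_zero fun k _ => ?_
      by_cases hik : i = k
      · subst hik; simp [Sched.D, S.lev_zero, lvlVal, hgdef]
      · simp [hik, horth i k hik]
    · intro i _
      simp only [Sched.D, S.lev_zero, lvlVal, pow_zero, div_one]
      linarith [hg i]
    · simp [Sched.Poor, Sched.Bal, Sched.Tb]
    · intro τ
      simp only [ne_eq, OfNat.ofNat_ne_zero, not_false_eq_true, zero_pow, zero_div,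
        Finset.sum_const_zero, add_zero, Sched.Bud, zero_add]
      positivity
    · intro τ
      simp only [ne_eq, OfNat.ofNat_ne_zero, not_false_eq_true, zero_pow, zero_div,
        Finset.sum_const_zero, add_zero, Sched.Bud, zero_add]
      positivity
  exact main J 0 _ _ _ (by omega) hroot

end Vale.Agent.P262
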