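import Vale.Agent.P262.Recursion

/-!
# P262: reduction to items of norm in `[1/2, 1]` with diagonal Gram matrix
-/

open scoped BigOperators

namespace Vale.Agent.P262

variable {n d : ℕ}

/-- Greedy bundling: consecutive bundles with sums of norm in `[1, 2]`, and a short rest. -/
lemma bundle {ι E : Type*} [NormedAddCommGroup E] (f : ι → E) (hf : ∀ i, ‖f i‖ ≤ 1)
    (l : List ι) :
    ∃ (bs : List (List ι)) (rem : List ι), l = bs.flatten ++ rem ∧
      (∀ b ∈ bs, 1 ≤ ‖(b.map f).sum‖ ∧ ∀ k, ‖((b.take k).map f).sum‖ ≤ 2) ∧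
      ∀ k, ‖((rem.take k).map f).sum‖ < 1 := by
  induction l using List.reverseRecOn with
  | nil => exact ⟨[], [], by simp, by simp, fun k => by simp⟩
  | append_singleton l x ih =>
    obtain ⟨bs, rem, hl, hbs, hrem⟩ := ih
    have htake : ∀ k, (rem ++ [x]).take k = rem.take k ∨ (rem ++ [x]).take k = rem ++ [x] := by
      intro k
      rcases le_or_gt k rem.length with h | h
      · exact Or.inl (List.take_append_of_le_length h)
      · exact Or.inr (List.take_of_length_le (by simp; omega))
    have hnew : ‖((rem ++ [x]).map f).sum‖ ≤ 2 := by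
      have := hrem rem.length
      rw [List.take_length] at this
      rw [List.map_append, List.sum_append, List.map_singleton, List.sum_singleton]
      linarith [norm_add_le (rem.map f).sum (f x), hf x]
    by_cases hc : 1 ≤ ‖((rem ++ [x]).map f).sum‖
    · refine ⟨bs ++ [rem ++ [x]], [], by simp [hl], ?_, fun k => by simp⟩
      intro b hb
      rcases List.mem_append.1 hb with hb | hb
      · exact hbs b hb
      · rw [List.mem_singleton.1 hb]
        refine ⟨hc, fun k => ?_⟩
        rcases htake k with h | h <;> rw [h]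
        · linarith [hrem k]
        · exact hnew
    · refine ⟨bs, rem ++ [x], by simp [hl], hbs, fun k => ?_⟩
      rcases htake k with h | h <;> rw [h]
      · exact hrem k
      · exact not_le.1 hc

/-- Two items of norm in `[1/2, 1]` with a prescribed short sum. -/
lemma dummies (hd : 0 < d) (u : EuclideanSpace ℝ (Fin d)) (hu : ‖u‖ ≤ 1 / 2) :
    ∃ x y : EuclideanSpace ℝ (Fin d), x + y = u ∧ 1 / 2 ≤ ‖x‖ ∧ ‖x‖ ≤ 1 ∧ 1 / 2 ≤ ‖y‖ ∧ ‖y‖ ≤ 1 := by
  by_cases h : u = 0
  · refine ⟨EuclideanSpace.single ⟨0, hd⟩ 1, -EuclideanSpace.single ⟨0, hd⟩ 1, by simp [h], ?_⟩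
    simp; norm_num
  · have hp : 0 < ‖u‖ := norm_pos_iff.2 h
    refine ⟨(1 + 1 / (2 * ‖u‖)) • u, -(1 / (2 * ‖u‖)) • u, by rw [← add_smul]; simp, ?_⟩
    rw [norm_smul, norm_smul, Real.norm_eq_abs, Real.norm_eq_abs, abs_neg,
      abs_of_pos (by positivity), abs_of_pos (by positivity)]
    have e : 1 / (2 * ‖u‖) * ‖u‖ = 1 / 2 := by field_simp
    rw [add_mul, e, one_mul]
    refine ⟨?_, ?_, le_rfl, by norm_num⟩ <;> linarith

/-- Ordering in coordinates where the Gram matrix is diagonal, transported to any family. -/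
lemma order_normalized (hSched : ScheduleProp) (hStep : StepProp) :
    ∃ C : ℝ, ∀ (n d : ℕ) (v : Fin n → EuclideanSpace ℝ (Fin d)), 0 < d →
      (∀ x, ‖v x‖ ≤ 1) → (∀ x, 1 / 2 ≤ ‖v x‖) → ∑ x, v x = 0 →
      ∃ l : List (Fin n), l.Nodup ∧ (∀ x, x ∈ l) ∧
        ∀ k, ‖((l.take k).map v).sum‖ ≤ C * Real.sqrt d := by
  obtain ⟨C, hcore⟩ := core hSched hStep
  refine ⟨Real.sqrt C, fun n d v hd hv hv' hsum => ?_⟩
  set T : EuclideanSpace ℝ (Fin d) →ₗ[ℝ] EuclideanSpace ℝ (Fin d) :=
    ∑ x, (innerₛₗ ℝ (v x)).smulRight (v x) with hT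
  have hTa : ∀ p q, inner ℝ (T p) q = ∑ x, inner ℝ (v x) p * inner ℝ (v x) q := fun p q => by
    simp [hT, sum_inner, real_inner_smul_left]
  have hTs : T.IsSymmetric := fun p q => by
    rw [hTa, real_inner_comm, hTa]
    exact Finset.sum_congr rfl fun x _ => mul_comm _ _
  set b := hTs.eigenvectorBasis finrank_euclideanSpace_fin with hb
  set u : Fin n → Fin d → ℝ := fun x i => inner ℝ (v x) (b i) with hu
  have hnorm : ∀ x, ∑ i, u x i ^ 2 = ‖v x‖ ^ 2 := fun x => by
    rw [← real_inner_self_eq_norm_sq, ← b.sum_inner_mul_inner (v x) (v x)]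
    exact Finset.sum_congr rfl fun i _ => by rw [hu, sq, real_inner_comm (v x) (b i)]
  have horth : ∀ i k, i ≠ k → gram u Finset.univ i k = 0 := fun i k hik => by
    have h : gram u Finset.univ i k = inner ℝ (T (b i)) (b k) := (hTa _ _).symm
    rw [h, hb, hTs.apply_eigenvectorBasis, real_inner_smul_left,
      (hTs.eigenvectorBasis finrank_euclideanSpace_fin).inner_eq_zero hik, mul_zero]
  have hsum' : ∀ i, vsum u Finset.univ i = 0 := fun i => by
    simp only [vsum, hu, ← sum_inner, hsum, inner_zero_left]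
  obtain ⟨l, hl, hlU, hlR⟩ := hcore n d u hd
    (fun x => by rw [hnorm]; nlinarith [hv x, norm_nonneg (v x)])
    (fun x => by rw [hnorm]; nlinarith [hv' x]) hsum' horth
  refine ⟨l, hl, fun x => by simpa [← List.mem_toFinset] using hlU.symm ▸ Finset.mem_univ x,
    fun k => ?_⟩
  have hp : ∀ (m : List (Fin n)) i, psum u m i = inner ℝ (m.map v).sum (b i) := by
    intro m i
    induction m with
    | nil => simp [psum]
    | cons x m ih =>
      simp only [psum, List.map_cons, List.sum_cons] at ih ⊢
      rw [inner_add_left, ih]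
  have hk := hlR k
  simp only [zero_add, hp] at hk
  set w := ((l.take k).map v).sum
  have hw : ‖w‖ ^ 2 ≤ C * d := by
    rw [← real_inner_self_eq_norm_sq, ← b.sum_inner_mul_inner w w]
    refine le_trans (le_of_eq (Finset.sum_congr rfl fun i _ => ?_)) hk
    rw [sq, real_inner_comm w (b i)]
  rcases le_or_gt 0 C with hC | hC
  · rw [← Real.sqrt_mul hC]
    exact Real.le_sqrt_of_sq_le hw
  · exfalso
    have : (0 : ℝ) < d := by exact_mod_cast hd
    nlinarith [sq_nonneg ‖w‖]

/-- The upper bound, as a list of all indices. -/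
theorem order_all (hSched : ScheduleProp) (hStep : StepProp) :
    ∃ C : ℝ, ∀ (N d : ℕ) (v : Fin N → EuclideanSpace ℝ (Fin d)), 0 < d →
      (∀ x, ‖v x‖ ≤ 1) → ∑ x, v x = 0 →
      ∃ l : List (Fin N), l.Perm (List.finRange N) ∧
        ∀ k, ‖((l.take k).map v).sum‖ ≤ C * Real.sqrt d := by
  classical
  obtain ⟨C, hC⟩ := order_normalized hSched hStep
  refine ⟨2 * |C| + 7, fun N d v hd hv hsum => ?_⟩
  obtain ⟨bs, rem, hl, hbs, hrem⟩ := bundle v hv (List.finRange N)
  set r := (rem.map v).sum with hr
  have hr1 : ‖r‖ < 1 := by simpa using hrem rem.length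
  obtain ⟨x, y, hxy, hx, hx', hy, hy'⟩ := dummies hd ((1 / 2 : ℝ) • r)
    (by rw [norm_smul, Real.norm_eq_abs,
        abs_of_pos (one_half_pos (α := ℝ))]; linarith)
  set u : Fin (bs.length + 2) → EuclideanSpace ℝ (Fin d) :=
    Fin.append (fun i : Fin bs.length => (1 / 2 : ℝ) • ((bs.get i).map v).sum) ![x, y] with hu
  have hsum' : ∑ i, u i = 0 := by
    rw [Fin.sum_univ_add]
    simp only [hu, Fin.append_left, Fin.append_right, Fin.sum_univ_two, Matrix.cons_val_zero,
      Matrix.cons_val_one, hxy]
    rw [← Finset.smul_sum, ← smul_add]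
    have : (∑ i : Fin bs.length, ((bs.get i).map v).sum) + r = 0 := by
      have h1 : (List.ofFn fun i : Fin bs.length => ((bs.get i).map v).sum) =
          bs.map (fun b => (b.map v).sum) := by
        conv_rhs => rw [← List.ofFn_get bs, List.map_ofFn]
        rfl
      rw [← List.sum_ofFn, h1, hr, ← hsum, ← List.sum_ofFn, List.ofFn_eq_map, hl, List.map_append,
        List.sum_append, List.map_flatten, List.sum_flatten, List.map_map]
      rfl
    rw [this, smul_zero]
  have hu1 : ∀ i, ‖u i‖ ≤ 1 := by
    intro i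
    refine Fin.addCases (fun i => ?_) (fun i => ?_) i
    · simp only [hu, Fin.append_left, norm_smul, Real.norm_eq_abs,
        abs_of_pos (one_half_pos (α := ℝ))]
      have := (hbs _ (bs.get_mem i)).2 (bs.get i).length
      rw [List.take_length] at this
      linarith
    · simp only [hu, Fin.append_right]
      fin_cases i
      · exact hx'
      · exact hy'
  have hu2 : ∀ i, 1 / 2 ≤ ‖u i‖ := by
    intro i
    refine Fin.addCases (fun i => ?_) (fun i => ?_) i
    · simp only [hu, Fin.append_left, norm_smul, Real.norm_eq_abs,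
        abs_of_pos (one_half_pos (α := ℝ))]
      have := (hbs _ (bs.get_mem i)).1
      linarith
    · simp only [hu, Fin.append_right]
      fin_cases i
      · exact hx
      · exact hy
  obtain ⟨l, hln, hlm, hlb⟩ := hC _ d u hd hu1 hu2 hsum'
  set B : Fin (bs.length + 2) → List (Fin N) :=
    Fin.append (fun i : Fin bs.length => bs.get i) (fun _ => []) with hB
  have hBv : ∀ i, ∀ k, ‖(((B i).take k).map v).sum‖ ≤ 2 := by
    intro i k
    refine Fin.addCases (fun i => ?_) (fun i => ?_) i
    · simpa [hB] using (hbs _ (bs.get_mem i)).2 k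
    · simp [hB]
  have hperm : (l.flatMap B ++ rem).Perm (List.finRange N) := by
    rw [hl]
    refine List.Perm.append_right rem ?_
    have h1 : l.Perm (List.finRange (bs.length + 2)) :=
      (List.perm_ext_iff_of_nodup hln (List.nodup_finRange _)).2 fun i => by simp [hlm i]
    refine (h1.flatMap_right B).trans (List.Perm.of_eq ?_)
    simp only [List.flatMap_def, ← List.ofFn_eq_map, hB, List.ofFn_fin_append]
    simp
  refine ⟨l.flatMap B ++ rem, hperm, fun k => ?_⟩
  -- prefixes of the unfolded list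
  have key : ∀ (m : List (Fin (bs.length + 2))), m.Nodup →
      ‖((m.flatMap B).map v).sum‖ ≤ 2 * ‖(m.map u).sum‖ + 4 := by
    intro m hm
    set D : Fin (bs.length + 2) → EuclideanSpace ℝ (Fin d) :=
      fun i => 2 • u i - ((B i).map v).sum with hD
    have e : ((m.flatMap B).map v).sum = 2 • (m.map u).sum - (m.map D).sum := by
      clear hm
      induction m with
      | nil => simp
      | cons i m ih =>
        simp only [List.flatMap_cons, List.map_append, List.sum_append, List.map_cons,
          List.sum_cons, ih, hD, smul_add]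
        abel
    have hD0 : ∀ i : Fin bs.length, D (Fin.castAdd 2 i) = 0 := fun i => by
      simp only [hD, hB, hu, Fin.append_left]
      rw [← Nat.cast_smul_eq_nsmul ℝ, smul_smul]
      norm_num
    have hD2 : ∀ i : Fin 2, ‖D (Fin.natAdd bs.length i)‖ ≤ 2 := fun i => by
      simp only [hD, hB, Fin.append_right, List.map_nil, List.sum_nil, sub_zero]
      rw [← Nat.cast_smul_eq_nsmul ℝ, norm_smul]
      have := hu1 (Fin.natAdd bs.length i)
      norm_num
      linarith
    have h4 : ‖(m.map D).sum‖ ≤ 4 := by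
      rw [← List.sum_toFinset _ hm]
      refine (norm_sum_le _ _).trans ((Finset.sum_le_sum_of_subset_of_nonneg
        (Finset.subset_univ _) fun i _ _ => norm_nonneg _).trans ?_)
      rw [Fin.sum_univ_add]
      rw [Finset.sum_eq_zero (fun i _ => norm_eq_zero.2 (hD0 i)), zero_add, Fin.sum_univ_two]
      linarith [hD2 0, hD2 1]
    rw [e]
    refine (norm_sub_le _ _).trans (add_le_add ?_ h4)
    rw [← Nat.cast_smul_eq_nsmul ℝ, norm_smul]
    norm_num
  have hsd : 1 ≤ Real.sqrt d := Real.one_le_sqrt.2 (by exact_mod_cast hd)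
  have hin : ∀ (m : List (Fin (bs.length + 2))) (k : ℕ), ∃ t, ∃ e : List (Fin N),
      (m.flatMap B).take k = (m.take t).flatMap B ++ e ∧ ‖(e.map v).sum‖ ≤ 2 := by
    intro m
    induction m with
    | nil => exact fun k => ⟨0, [], by simp⟩
    | cons i m ih =>
      intro k
      rcases le_or_gt k (B i).length with h | h
      · refine ⟨0, (B i).take k, ?_, hBv i k⟩
        simp [List.flatMap_cons, List.take_append_of_le_length h]
      · obtain ⟨t, e, he, he'⟩ := ih (k - (B i).length)
        refine ⟨t + 1, e, ?_, he'⟩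
        simp [List.flatMap_cons, List.take_append, List.take_of_length_le h.le, he]
  have hflat : ∀ k, ‖(((l.flatMap B).take k).map v).sum‖ ≤ 2 * (|C| * Real.sqrt d) + 6 := by
    intro k
    obtain ⟨t, e, he, he'⟩ := hin l k
    rw [he, List.map_append, List.sum_append]
    have h1 := key (l.take t) (hln.sublist (List.take_sublist _ _))
    have h2 := (hlb t).trans (mul_le_mul_of_nonneg_right (le_abs_self C) (Real.sqrt_nonneg _))
    linarith [norm_add_le (((l.take t).flatMap B).map v).sum (e.map v).sum]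
  rw [List.take_append]
  rcases le_or_gt k (l.flatMap B).length with h | h
  · rw [Nat.sub_eq_zero_of_le h, List.take_zero, List.append_nil]
    nlinarith [hflat k, abs_nonneg C]
  · rw [List.take_of_length_le h.le, List.map_append, List.sum_append]
    have h1 := hflat (l.flatMap B).length
    rw [List.take_length] at h1
    have h2 := hrem (k - (l.flatMap B).length)
    nlinarith [norm_add_le ((l.flatMap B).map v).sum
      ((rem.take (k - (l.flatMap B).length)).map v).sum, abs_nonneg C]

/-- The upper bound `O(√d)`. -/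
theorem steinitz_upper (hSched : ScheduleProp) (hStep : StepProp) :
    ∃ C : ℝ, ∀ (d N : ℕ) (v : Fin N → EuclideanSpace ℝ (Fin d)), (∀ i, ‖v i‖ ≤ 1) →
      ∑ i, v i = 0 → ∃ π : Equiv.Perm (Fin N), ∀ k ≤ N,
        ‖∑ i ∈ Finset.univ.filter (fun i : Fin N => (i : ℕ) < k), v (π i)‖ ≤ C * Real.sqrt d := by
  obtain ⟨C, hC⟩ := order_all hSched hStep
  refine ⟨C, fun d N v hv hsum => ?_⟩
  rcases Nat.eq_zero_or_pos d with rfl | hd
  · refine ⟨1, fun k _ => ?_⟩
    have : ∀ x : EuclideanSpace ℝ (Fin 0), x = 0 := fun x => Subsingleton.elim _ _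
    rw [this (∑ i ∈ _, _)]
    simp
  obtain ⟨l, hp, hlb⟩ := hC N d v hd hv hsum
  have hlen : l.length = N := by rw [hp.length_eq, List.length_finRange]
  have hnd : l.Nodup := hp.nodup_iff.2 (List.nodup_finRange N)
  set e : Fin N → Fin N := fun i => l.get (i.cast hlen.symm) with he
  have hinj : Function.Injective e := fun i k h => by
    simpa using (List.Nodup.get_inj_iff hnd).1 h
  refine ⟨Equiv.ofBijective e hinj.bijective_of_finite, fun k hk => ?_⟩
  have hsum' : ∀ k ≤ N, ∑ i ∈ Finset.univ.filter (fun i : Fin N => (i : ℕ) < k), v (e i) =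
      ((l.take k).map v).sum := by
    intro k
    induction k with
    | zero => simp
    | succ k ih =>
      intro hk
      have hk' : k < N := hk
      rw [show Finset.univ.filter (fun i : Fin N => (i : ℕ) < k + 1) =
          insert ⟨k, hk'⟩ (Finset.univ.filter fun i : Fin N => (i : ℕ) < k) by
        ext i; simp [Fin.ext_iff, le_iff_eq_or_lt],
        Finset.sum_insert (by simp), ih (Nat.le_of_succ_le hk),
        List.take_succ_eq_append_getElem (hlen.symm ▸ hk'), List.map_append, List.sum_append]
      simp [he, add_comm]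
  simp only [Equiv.ofBijective_apply]
  rw [hsum' k hk]
  exact hlb k

end Vale.Agent.P262
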