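import Mathlib
import Vale.Agent.P262.Defs
import Vale.Agent.P262.Schedule.Levels
import Vale.Agent.P262.Schedule.Walk
import Vale.Agent.P262.Schedule.Budget

/-!
# P262: a schedule with linear total budget

A level is good if its load is at most `ε'`. The bad levels, of which there are `O(d)`, are
jumped over by wide steps whose masses are spread apart.
-/

open scoped BigOperators
open Finset

namespace Vale.Agent.P262

section

variable {d : ℕ} (g : Fin d → ℝ)

lemma sum_load_le {K : ℝ} (hK : ∀ (M : ℕ) (x : ℝ), ∑ l ∈ range M, loadTerm (x / 2 ^ l) ≤ K)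
    (M : ℕ) : ∑ l ∈ range M, load g l ≤ K * d := by
  simp only [load]
  rw [sum_comm]
  calc ∑ i : Fin d, ∑ l ∈ range M, loadTerm (g i / 2 ^ l) ≤ ∑ _i : Fin d, K :=
        sum_le_sum fun i _ => hK M (g i)
    _ = K * d := by simp [mul_comm]

/-- Coordinates that drop below one inside `[s, e]` are paid for by the load. -/
lemma card_cross_le_load {s e : ℕ} (A : Finset (Fin d))
    (hA : ∀ i ∈ A, 1 ≤ g i / 2 ^ s ∧ g i / 2 ^ e < 1) :
    (A.card : ℝ) ≤ 2 * ∑ l ∈ Icc s e, load g l := by
  have key : ∀ i ∈ A, (1 / 2 : ℝ) ≤ ∑ l ∈ Icc s e, loadTerm (g i / 2 ^ l) := by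
    intro i hi
    obtain ⟨h1, h2⟩ := hA i hi
    have hse : s < e := by
      by_contra hc
      rw [not_lt] at hc
      have h : (2 : ℝ) ^ e ≤ 2 ^ s := pow_le_pow_right₀ one_le_two hc
      rw [le_div_iff₀ (by positivity)] at h1
      rw [div_lt_one (by positivity)] at h2
      linarith
    set l := Nat.findGreatest (fun l => 1 ≤ g i / 2 ^ l) e with hl
    have hl1 : 1 ≤ g i / 2 ^ l :=
      Nat.findGreatest_spec (P := fun l => 1 ≤ g i / 2 ^ l) hse.le h1
    have hsl : s ≤ l := Nat.le_findGreatest (P := fun l => 1 ≤ g i / 2 ^ l) hse.le h1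
    have hle : l ≤ e := Nat.findGreatest_le e
    have hlt : l < e := lt_of_le_of_ne hle fun h => by rw [h] at hl1; linarith
    have hl2 : g i / 2 ^ l < 2 := by
      by_contra hc
      rw [not_lt] at hc
      have hq : 1 ≤ g i / 2 ^ (l + 1) := by
        rw [pow_succ, ← div_div]; linarith
      have := Nat.le_findGreatest (P := fun l => 1 ≤ g i / 2 ^ l) (by omega : l + 1 ≤ e) hq
      omega
    refine le_trans ?_ (single_le_sum (fun l _ => loadTerm_nonneg _) (mem_Icc.2 ⟨hsl, hle⟩))
    rw [loadTerm, if_pos hl1]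
    calc (1 / 2 : ℝ) ≤ (g i / 2 ^ l) ^ (-1 : ℝ) := by
          rw [Real.rpow_neg_one, one_div]
          exact inv_anti₀ (by linarith) hl2.le
      _ ≤ _ := Real.rpow_le_rpow_of_exponent_le hl1 (by norm_num)
  have h : (A.card : ℝ) * (1 / 2) ≤ ∑ l ∈ Icc s e, load g l := by
    calc (A.card : ℝ) * (1 / 2) = ∑ _i ∈ A, (1 / 2 : ℝ) := by simp
      _ ≤ ∑ i ∈ A, ∑ l ∈ Icc s e, loadTerm (g i / 2 ^ l) := sum_le_sum key
      _ = ∑ l ∈ Icc s e, ∑ i ∈ A, loadTerm (g i / 2 ^ l) := sum_comm
      _ ≤ ∑ l ∈ Icc s e, load g l := sum_le_sum fun l _ =>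
          sum_le_sum_of_subset_of_nonneg (subset_univ A) fun j _ _ => loadTerm_nonneg _
  linarith

end

/-- A schedule exists and its total budget is linear in `d`. -/
theorem schedule_prop : ScheduleProp := by
  intro C0 ε hC0 hε hε1
  obtain ⟨K, hK1, hK⟩ := sum_loadTerm_le
  obtain ⟨K₂, hK₂0, hK₂⟩ := sq_mul_pow_le
  set ε' := min ε (1 / (4 * C0)) with hε'def
  have hε'0 : 0 < ε' := lt_min hε (by positivity)
  have hε'1 : ε' ≤ 1 := (min_le_left _ _).trans hε1
  set A : ℝ := 4 + 2 * C0 ^ 2 with hAdef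
  have hA4 : 4 ≤ A := by linarith [sq_nonneg C0]
  have hA0 : 0 ≤ A := by linarith
  set c : ℝ := A + 2 with hcdef
  set C₁ : ℝ := 3 * (6 * A * (K / ε' + 1) + 2 * K + 1) with hC₁
  have hC₁0 : 0 < C₁ := by
    have : 0 ≤ K / ε' := div_nonneg (by linarith) hε'0.le
    have := mul_nonneg (mul_nonneg (by norm_num : (0 : ℝ) ≤ 6) hA0) (by linarith : 0 ≤ K / ε' + 1)
    rw [hC₁]; linarith
  have hC₂0 : 0 < 5 + c ^ 2 * K₂ * 40 := by
    linarith [mul_nonneg (sq_nonneg c) hK₂0]
  refine ⟨(5 + c ^ 2 * K₂ * 40) * C₁, mul_pos hC₂0 hC₁0, fun P hP0 hPε hCb d g hd hg => ?_⟩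
  obtain ⟨L, hL⟩ := load_eventually_zero g
  set bad := (range L).filter (fun l => ε' < load g l) with hbad
  have hgood : ∀ l, l ∉ bad → load g l ≤ ε' := by
    intro l hl
    by_contra hc
    rw [not_le] at hc
    rcases lt_or_ge l L with h | h
    · exact hl (mem_filter.2 ⟨mem_range.2 h, hc⟩)
    · linarith [hL l h]
  set a : ℕ → ℝ := fun l => A + 2 * load g l + if l = 0 then (d : ℝ) else 0 with hadef
  have ha : ∀ l, 4 ≤ a l := fun l => by
    have := load_nonneg g l
    simp only [hadef]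
    split <;> linarith
  have hac : ∀ l, 1 ≤ l → l ∉ bad → a l ≤ c := fun l hl hb => by
    have := hgood l hb
    simp only [hadef, hcdef, if_neg (Nat.one_le_iff_ne_zero.1 hl)]
    linarith
  have ha0 : ∀ l, 0 ≤ a l := fun l => by linarith [ha l]
  obtain ⟨F₀, hF₀, hF₀card⟩ := exists_family bad
  obtain ⟨F, hF, hFmass, hFsep⟩ := exists_separated bad a ha hac hF₀
  have hd1 : (1 : ℝ) ≤ d := by exact_mod_cast hd
  have hbadcard : (bad.card : ℝ) ≤ K * d / ε' := by
    rw [le_div_iff₀ hε'0]
    calc (bad.card : ℝ) * ε' = ∑ _l ∈ bad, ε' := by simp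
      _ ≤ ∑ l ∈ bad, load g l := sum_le_sum fun l hl => (mem_filter.1 hl).2.le
      _ ≤ ∑ l ∈ range L, load g l :=
          sum_le_sum_of_subset_of_nonneg (filter_subset _ _) fun l _ _ => load_nonneg g l
      _ ≤ K * d := sum_load_le g hK L
  have hF₀mass : ∑ p ∈ F₀, mass a p ≤ C₁ / 3 * d := by
    have e : ∀ p ∈ F₀, mass a p = A * ((Icc p.1 p.2).card : ℝ) +
        2 * ∑ l ∈ Icc p.1 p.2, load g l + ∑ l ∈ Icc p.1 p.2, (if l = 0 then (d : ℝ) else 0) :=
      fun p _ => by simp only [mass, hadef, sum_add_distrib, sum_const, nsmul_eq_mul, mul_sum]; ring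
    rw [sum_congr rfl e, sum_add_distrib, sum_add_distrib, ← mul_sum, ← mul_sum]
    have h1 := hF₀.sum_Icc_le (load_nonneg g) (sum_load_le g hK)
    have h2 := hF₀.sum_Icc_le (h := fun l => if l = 0 then (d : ℝ) else 0)
      (fun l => by split <;> positivity) (K := d) fun M => by
        rw [sum_ite_eq']; split <;> simp
    have h3 := mul_le_mul_of_nonneg_left hF₀card hA0
    have h4 := mul_le_mul_of_nonneg_left hbadcard hA0
    have e2 : C₁ / 3 * d = 6 * (A * (K * d / ε')) + 6 * A * d + 2 * (K * d) + d := by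
      rw [hC₁]; ring
    have := mul_le_mul_of_nonneg_left hd1 hA0
    linarith
  have hmassF : ∑ p ∈ F, mass a p ≤ C₁ * d := by linarith
  set W : ℕ → ℝ := fun j => if walkWide F j then mass a (walk F j, walk F (j + 1)) else 0 with hW
  let S : Sched P g :=
    { lev := walk F, lev_zero := rfl, lev_mono := hF.walk_strictMono, W := W, wide := walkWide F,
      wide_iff := fun j => by simp [walkWide] }
  have hwd1 : ∀ j, 1 ≤ S.wd j := fun j => by
    have := hF.walk_strictMono (lt_add_one j)
    show 1 ≤ walk F (j + 1) - walk F j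
    omega
  have hwdR : ∀ j, (1 : ℝ) ≤ (S.wd j : ℝ) := fun j => by exact_mod_cast hwd1 j
  have hk : ∀ j, P.C0 ≤ kappa P.C0 (S.wd j) := fun j => by
    have h := Real.one_le_rpow (hwdR j) (by norm_num : (0 : ℝ) ≤ 7 / 8)
    rw [kappa]
    exact le_mul_of_one_le_right (by linarith [hP0]) h
  have hballarge : ∀ j, ∀ i ∈ S.Bal (j + 1), P.C0 ≤ S.D (j + 1) i := fun j i hi =>
    (hk j).trans (mem_filter.1 hi).2
  have hbal1 : ∀ j, 0 < j → ∀ i ∈ S.Bal j, C0 ≤ g i / 2 ^ walk F j := by
    intro j hj i hi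
    obtain ⟨k, rfl⟩ := Nat.exists_eq_add_of_le' hj
    exact hP0 ▸ hballarge k i hi
  have hWnn : ∀ j, 0 ≤ W j := fun j => by
    simp only [hW]
    split
    · exact sum_nonneg fun l _ => ha0 l
    · rfl
  have hWbin : ∀ j, walkWide F j = false → W j = 0 := fun j h => by simp [hW, h]
  have hWlow : ∀ j, walkWide F j = true →
      A * ((S.wd j : ℝ) + 1) + 2 * ∑ l ∈ Icc (walk F j) (walk F (j + 1)), load g l +
        (if j = 0 then (d : ℝ) else 0) ≤ W j := by
    intro j h
    have hcard : (((Icc (walk F j) (walk F (j + 1))).card : ℕ) : ℝ) = (S.wd j : ℝ) + 1 := by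
      have := hF.walk_strictMono (lt_add_one j)
      rw [Nat.card_Icc]
      have e : walk F (j + 1) + 1 - walk F j = S.wd j + 1 := by
        show _ = walk F (j + 1) - walk F j + 1
        omega
      rw [e]; push_cast; ring
    simp only [hW, h, if_true, mass, hadef, sum_add_distrib, sum_const, nsmul_eq_mul, ← mul_sum,
      hcard]
    have hd0 : (if j = 0 then (d : ℝ) else 0) ≤
        ∑ l ∈ Icc (walk F j) (walk F (j + 1)), (if l = 0 then (d : ℝ) else 0) := by
      rw [sum_ite_eq']
      rcases eq_or_ne j 0 with rfl | hj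
      · simp [walk]
      · rw [if_neg hj]; split <;> positivity
    linarith
  have hw_le : ∀ j, walkWide F j = true → (S.wd j : ℝ) + 1 ≤ W j := fun j h => by
    have h1 := hWlow j h
    have h2 : (0 : ℝ) ≤ ∑ l ∈ Icc (walk F j) (walk F (j + 1)), load g l :=
      sum_nonneg fun l _ => load_nonneg g l
    have h3 : (0 : ℝ) ≤ if j = 0 then (d : ℝ) else 0 := by split <;> positivity
    have := mul_le_mul_of_nonneg_right hA4 (by positivity : (0 : ℝ) ≤ (S.wd j : ℝ) + 1)
    linarith
  have hnew0 : ∀ j, walkWide F j = false → S.New j = ∅ := by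
    intro j h
    refine eq_empty_of_forall_notMem fun i hi => ?_
    rw [Sched.New, mem_sdiff] at hi
    have hj : 0 < j := Nat.pos_of_ne_zero fun e => by subst e; simp [hF.wide_zero] at h
    have hw1 : S.wd j = 1 := by
      rw [walkWide, decide_eq_false_iff_not] at h
      have := hwd1 j
      change 1 ≤ walk F (j + 1) - walk F j at this
      show walk F (j + 1) - walk F j = 1
      omega
    have hlo := hbal1 j hj i hi.1
    have hhi : g i / 2 ^ walk F j ≤ 2 * C0 := by
      by_contra hc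
      rw [not_le] at hc
      refine hi.2 (mem_filter.2 ⟨hi.1, ?_⟩)
      have e : walk F (j + 1) = walk F j + 1 := by
        have := hF.walk_strictMono (lt_add_one j)
        change walk F (j + 1) - walk F j = 1 at hw1
        omega
      show kappa P.C0 (S.wd j) ≤ g i / 2 ^ walk F (j + 1)
      rw [hw1, e, kappa, Nat.cast_one, Real.one_rpow, mul_one, hP0, pow_succ, ← div_div]
      linarith
    have hc1 := card_filter_le_load g (walk F j) {i} (x := 2 * C0) fun k hk => by
      obtain rfl := mem_singleton.1 hk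
      exact ⟨le_trans hC0 hlo, hhi⟩
    rw [card_singleton, Nat.cast_one] at hc1
    have h2 : (2 * C0) ^ (1 / 16 : ℝ) ≤ 2 * C0 := Real.rpow_le_self_of_one_le (by linarith) (by norm_num)
    have h3 : load g (walk F j) * (2 * C0) ^ (1 / 16 : ℝ) ≤ 1 / (4 * C0) * (2 * C0) :=
      mul_le_mul ((hgood _ (hF.walk_good hj)).trans (min_le_right _ _)) h2
        (Real.rpow_nonneg (by linarith) _) (by positivity)
    have h4 : 1 / (4 * C0) * (2 * C0) = 1 / 2 := by field_simp; ring
    linarith
  have hmass : ∀ j, ∑ i ∈ S.New j, max (S.D (j + 1) i) 1 ≤ W j := by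
    intro j
    rcases Bool.eq_false_or_eq_true (walkWide F j) with h | h
    swap
    · rw [hnew0 j h, sum_empty]; exact hWnn j
    set κ := kappa P.C0 (S.wd j) with hκ
    have hκ1 : 1 ≤ κ := le_trans (hP0 ▸ hC0) (hk j)
    have hlt : ∀ i ∈ S.New j, i ∈ S.Bal j ∧ g i / 2 ^ walk F (j + 1) < κ := fun i hi => by
      rw [Sched.New, mem_sdiff] at hi
      refine ⟨hi.1, ?_⟩
      by_contra hc
      exact hi.2 (mem_filter.2 ⟨hi.1, not_lt.1 hc⟩)
    set lo := (S.New j).filter (fun i => g i / 2 ^ walk F (j + 1) < 1) with hlo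
    set hi := (S.New j).filter (fun i => ¬g i / 2 ^ walk F (j + 1) < 1) with hhi
    have hsum : ∑ i ∈ S.New j, max (S.D (j + 1) i) 1 ≤ (lo.card : ℝ) + hi.card * κ := by
      rw [← sum_filter_add_sum_filter_not (S.New j) (fun i => g i / 2 ^ walk F (j + 1) < 1)]
      refine add_le_add ?_ ?_
      · refine (sum_le_card_nsmul _ _ 1 fun i hi' => ?_).trans_eq (by simp [hlo])
        exact max_le (mem_filter.1 hi').2.le le_rfl
      · refine (sum_le_card_nsmul _ _ κ fun i hi' => ?_).trans_eq (by simp [hhi])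
        exact max_le (hlt i (mem_filter.1 hi').1).2.le hκ1
    have hlocard : (lo.card : ℝ) ≤ 2 * ∑ l ∈ Icc (walk F j) (walk F (j + 1)), load g l +
        (if j = 0 then (d : ℝ) else 0) := by
      rcases eq_or_ne j 0 with rfl | hj
      · have : (lo.card : ℝ) ≤ d := by
          exact_mod_cast (card_le_univ lo).trans_eq (Fintype.card_fin d)
        rw [if_pos rfl]
        have : (0 : ℝ) ≤ ∑ l ∈ Icc (walk F 0) (walk F (0 + 1)), load g l :=
          sum_nonneg fun l _ => load_nonneg g l
        linarith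
      · rw [if_neg hj, add_zero]
        exact card_cross_le_load g lo fun i hi' => ⟨le_trans hC0 (hbal1 j (Nat.pos_of_ne_zero hj) i
          (hlt i (mem_filter.1 hi').1).1), (mem_filter.1 hi').2⟩
    have hhicard : (hi.card : ℝ) * κ ≤ C0 ^ 2 * (S.wd j : ℝ) := by
      have h1 := card_filter_le_load g (walk F (j + 1)) hi (x := κ) fun i hi' =>
        ⟨not_lt.1 (mem_filter.1 hi').2, (hlt i (mem_filter.1 hi').1).2.le⟩
      have h2 : load g (walk F (j + 1)) * κ ^ (1 / 16 : ℝ) ≤ 1 * κ ^ (1 / 16 : ℝ) :=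
        mul_le_mul_of_nonneg_right ((hgood _ (hF.walk_good (Nat.add_one_pos j))).trans hε'1)
          (Real.rpow_nonneg (by linarith) _)
      refine le_trans (mul_le_mul_of_nonneg_right (h1.trans h2) (by linarith)) ?_
      rw [one_mul, ← Real.rpow_add_one (by linarith : κ ≠ 0), hκ, kappa, hP0,
        Real.mul_rpow (by linarith) (Real.rpow_nonneg (Nat.cast_nonneg _) _),
        ← Real.rpow_mul (Nat.cast_nonneg _)]
      refine mul_le_mul ?_ ?_ (Real.rpow_nonneg (Nat.cast_nonneg _) _) (sq_nonneg _)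
      · rw [← Real.rpow_two]
        exact Real.rpow_le_rpow_of_exponent_le hC0 (by norm_num)
      · exact Real.rpow_le_self_of_one_le (hwdR j) (by norm_num)
    have h1 := hWlow j h
    have h2 : C0 ^ 2 * (S.wd j : ℝ) ≤ A * ((S.wd j : ℝ) + 1) :=
      mul_le_mul (by rw [hAdef]; linarith [sq_nonneg C0]) (by linarith) (by positivity) hA0
    linarith
  have hvalid : S.Valid :=
    { first := hF.wide_zero
      wide_next := fun j h => hF.wide_next h
      W_nonneg := hWnn
      W_binary := hWbin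
      width_le := fun j h => by have := hw_le j h; show (S.wd j : ℝ) ≤ W j; linarith
      new_binary := hnew0
      new_card := fun j => by
        refine le_trans ?_ (hmass j)
        simpa using sum_le_sum (fun i (_ : i ∈ S.New j) => le_max_right (S.D (j + 1) i) (1 : ℝ))
      new_mass := hmass
      bal_large := hballarge
      good := fun j hj x hx => by
        refine le_trans (card_filter_le_load g (walk F j) _ (x := x) fun i hi => ?_)
          (mul_le_mul_of_nonneg_right ((hgood _ (hF.walk_good hj)).trans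
            ((min_le_left _ _).trans_eq hPε.symm)) (Real.rpow_nonneg (by linarith) _))
        exact ⟨le_trans hC0 (hbal1 j hj i (mem_filter.1 hi).1), (mem_filter.1 hi).2⟩ }
  have hWsum : ∀ J, ∑ j ∈ range J, W j ≤ C₁ * d := by
    intro J
    refine le_trans ?_ hmassF
    have e : ∑ j ∈ range J, W j = ∑ j ∈ (range J).filter (fun j => walkWide F j = true),
        mass a (walk F j, walk F (j + 1)) := by
      rw [sum_filter]
    rw [e, ← sum_image (g := fun j => (walk F j, walk F (j + 1))) (f := mass a)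
      fun x _ y _ hxy => hF.walk_strictMono.injective (Prod.mk.inj hxy).1]
    refine sum_le_sum_of_subset_of_nonneg (fun p hp => ?_)
      fun p _ _ => sum_nonneg fun l _ => ha0 l
    obtain ⟨j, hj, rfl⟩ := mem_image.1 hp
    exact (hF.wide_iff_mem j).1 (mem_filter.1 hj).2
  have hT0 : S.Tb 0 = 0 := rfl
  have hT : ∀ j, S.Tb (j + 1) =
      if walkWide F j then S.Tb j + P.Cb * W j else 3 / 4 * S.Tb j := fun j => rfl
  have hTnn : ∀ j, 0 ≤ S.Tb j := fun j => by
    rw [poorMass_eq hT0 hT hWbin j]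
    exact mul_nonneg (by linarith) (sum_nonneg fun o _ => mul_nonneg (hWnn o) (by positivity))
  have hsep : ∀ o r, o < r → walkWide F o = true → walkWide F r = true →
      Real.sqrt (min (W o) (W r)) ≤ c * binGap (walkWide F) o r := by
    intro o r hor ho hr
    have hne : o + 1 ≠ r := fun h => by
      have := hF.wide_next ho
      rw [h, hr] at this
      simp at this
    have hlt : walk F (o + 1) < walk F r := hF.walk_strictMono (by omega)
    have h1 := hFsep _ ((hF.wide_iff_mem o).1 ho) _ ((hF.wide_iff_mem r).1 hr) hlt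
    simp only [hW, ho, hr, if_true]
    refine h1.trans (mul_le_mul_of_nonneg_left ?_ (by linarith))
    exact Nat.cast_le.2 (hF.free_card_le (o := o) (r := r))
  refine ⟨S, hvalid, fun J => ?_, ?_⟩
  · have hterm : ∀ j, S.W j + (if S.wide j then (S.wd j : ℝ) + 1 else 1) * S.Tb j ≤
        W j + W j * S.Tb j + 4 * (if walkWide F j then 0 else S.Tb j / 4) := by
      intro j
      show W j + (if walkWide F j then (S.wd j : ℝ) + 1 else 1) * S.Tb j ≤ _
      cases h : walkWide F j with
      | true =>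
        simp only [if_true]
        have := mul_le_mul_of_nonneg_right (hw_le j h) (hTnn j)
        linarith
      | false =>
        simp only [Bool.false_eq_true, if_false, hWbin j h]
        linarith
    have hbud : ∀ J, S.Bud J ≤ P.Cb * ∑ j ∈ range J,
        (W j + W j * S.Tb j + 4 * (if walkWide F j then 0 else S.Tb j / 4)) := by
      intro J
      induction J with
      | zero => simp [Sched.Bud]
      | succ J ih =>
        rw [sum_range_succ, mul_add, Sched.Bud]
        exact add_le_add ih (mul_le_mul_of_nonneg_left (hterm J) (by linarith))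
    refine (hbud J).trans ?_
    rw [sum_add_distrib, sum_add_distrib, ← mul_sum]
    have h1 := sum_poorMass_binary hT0 hT hWbin J
    have h2 := sum_wide_poorMass_le (by linarith) hT0 hT hWbin hWnn (fun j h => hF.wide_next h)
      hK₂0 hK₂ hsep J
    have h3 := hWsum J
    set U := ∑ j ∈ range J, W j with hU
    have hU0 : 0 ≤ U := sum_nonneg fun j _ => hWnn j
    have hb : ∑ j ∈ range J, (if walkWide F j then 0 else S.Tb j / 4) ≤ P.Cb * U := by
      linarith [hTnn J]
    have hcb2 : U ≤ P.Cb * U := le_mul_of_one_le_left hU0 hCb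
    calc P.Cb * (U + ∑ j ∈ range J, W j * S.Tb j +
          4 * ∑ j ∈ range J, (if walkWide F j then 0 else S.Tb j / 4))
        ≤ P.Cb * (P.Cb * U + P.Cb * (c ^ 2 * K₂ * 40) * U + 4 * (P.Cb * U)) :=
          mul_le_mul_of_nonneg_left (by linarith) (by linarith)
      _ = (5 + c ^ 2 * K₂ * 40) * P.Cb ^ 2 * U := by ring
      _ ≤ (5 + c ^ 2 * K₂ * 40) * P.Cb ^ 2 * (C₁ * d) :=
          mul_le_mul_of_nonneg_left h3 (mul_nonneg hC₂0.le (sq_nonneg _))
      _ = _ := by ring
  · obtain ⟨J₀, hJ₀⟩ := hF.eventually_binary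
    obtain ⟨L', hL'⟩ := pow_unbounded_of_one_lt (∑ i, |g i|) (one_lt_two : (1 : ℝ) < 2)
    have hdecay : ∀ k, S.Tb (J₀ + k) = (3 / 4) ^ k * S.Tb J₀ := by
      intro k
      induction k with
      | zero => simp
      | succ k ih =>
        rw [← add_assoc, hT, hJ₀ (J₀ + k) (by omega), if_neg (by simp), ih, pow_succ]
        ring
    have hTJ := hTnn J₀
    obtain ⟨k₀, hk₀⟩ := exists_pow_lt_of_lt_one
      (by positivity : (0 : ℝ) < 1 / (4 * (S.Tb J₀ + 1))) (by norm_num : (3 / 4 : ℝ) < 1)
    rw [Filter.eventually_atTop]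
    refine ⟨J₀ + k₀ + L' + 1, fun j hj => ⟨eq_empty_of_forall_notMem fun i hi => ?_, ?_⟩⟩
    · have h1 := le_trans hC0 (hbal1 j (by omega) i hi)
      rw [le_div_iff₀ (by positivity), one_mul] at h1
      have h2 : (2 : ℝ) ^ L' ≤ 2 ^ walk F j := by
        have := hF.le_walk j
        exact pow_le_pow_right₀ one_le_two (by omega)
      have h3 := single_le_sum (f := fun k => |g k|) (fun k _ => abs_nonneg _) (mem_univ i)
      have h4 := le_abs_self (g i)
      linarith
    · obtain ⟨k, rfl⟩ := Nat.exists_eq_add_of_le (by omega : J₀ ≤ j)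
      have h1 : (3 / 4 : ℝ) ^ k ≤ (3 / 4) ^ k₀ :=
        pow_le_pow_of_le_one (by norm_num) (by norm_num) (by omega)
      rw [hdecay]
      calc (3 / 4 : ℝ) ^ k * S.Tb J₀ ≤ (3 / 4) ^ k₀ * S.Tb J₀ :=
            mul_le_mul_of_nonneg_right h1 hTJ
        _ < 1 / (4 * (S.Tb J₀ + 1)) * (S.Tb J₀ + 1) :=
            mul_lt_mul'' hk₀ (lt_add_one _) (by positivity) hTJ
        _ = 1 / 4 := by field_simp

end Vale.Agent.P262
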